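import Vale.Agent.P219.Frame.Defs

/-!
# P219: the one dimensional marginals of the ball

`massTo m s = ∫₋₁ˢ (1 - t²)^(m/2)`, its inverse, and the volume of the ball as a product.
-/

open MeasureTheory Set Real intervalIntegral
open scoped ENNReal Pointwise

namespace Vale.Agent.P219.Frame

noncomputable section

/-- The density of the marginal. -/
def wgt (m : ℕ) (t : ℝ) : ℝ := √(max 0 (1 - t ^ 2)) ^ m

theorem continuous_wgt (m : ℕ) : Continuous (wgt m) :=
  ((continuous_const.max (continuous_const.sub (continuous_pow 2))).sqrt).pow m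

theorem wgt_nonneg (m : ℕ) (t : ℝ) : 0 ≤ wgt m t := pow_nonneg (Real.sqrt_nonneg _) _

theorem wgt_pos (m : ℕ) {t : ℝ} (ht : t ∈ Ioo (-1 : ℝ) 1) : 0 < wgt m t := by
  refine pow_pos (Real.sqrt_pos.2 (lt_max_of_lt_right ?_)) _
  nlinarith [ht.1, ht.2]

theorem wgt_eq (m : ℕ) {t : ℝ} (ht : t ∈ Icc (-1 : ℝ) 1) : wgt m t = √(1 - t ^ 2) ^ m := by
  rw [wgt, max_eq_right (by nlinarith [ht.1, ht.2])]

/-- The primitive of the density. -/
def massTo (m : ℕ) (s : ℝ) : ℝ := ∫ t in (-1 : ℝ)..s, wgt m t

/-- The total mass. -/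
def total (m : ℕ) : ℝ := massTo m 1

theorem hasDerivAt_massTo (m : ℕ) (s : ℝ) : HasDerivAt (massTo m) (wgt m s) s :=
  ((continuous_wgt m).integral_hasStrictDerivAt (-1) s).hasDerivAt

theorem continuous_massTo (m : ℕ) : Continuous (massTo m) :=
  continuous_iff_continuousAt.2 fun s => (hasDerivAt_massTo m s).continuousAt

theorem strictMono_massTo (m : ℕ) : StrictMonoOn (massTo m) (Icc (-1) 1) := by
  refine strictMonoOn_of_deriv_pos (convex_Icc _ _) (continuous_massTo m).continuousOn fun x hx => ?_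
  rw [interior_Icc] at hx
  rw [(hasDerivAt_massTo m x).deriv]
  exact wgt_pos m hx

theorem massTo_neg_one (m : ℕ) : massTo m (-1) = 0 := intervalIntegral.integral_same

theorem total_pos (m : ℕ) : 0 < total m := by
  have h := strictMono_massTo m (left_mem_Icc.2 (by norm_num : (-1 : ℝ) ≤ 1))
    (right_mem_Icc.2 (by norm_num)) (by norm_num)
  rwa [massTo_neg_one] at h

theorem exists_quantile (m : ℕ) (y : ℝ) :
    ∃ x ∈ Icc (-1 : ℝ) 1, massTo m x = total m * max 0 (min 1 y) := by
  have h0 : 0 ≤ total m := (total_pos m).le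
  have hmem : total m * max 0 (min 1 y) ∈ Icc (massTo m (-1)) (massTo m 1) := by
    rw [massTo_neg_one]
    exact ⟨mul_nonneg h0 (le_max_left _ _),
      mul_le_of_le_one_right h0 (max_le zero_le_one (min_le_left _ _))⟩
  exact intermediate_value_Icc (by norm_num) (continuous_massTo m).continuousOn hmem

/-- The quantile function of the normalised marginal, extended as a constant. -/
def quantile (m : ℕ) (y : ℝ) : ℝ := (exists_quantile m y).choose

theorem quantile_mem (m : ℕ) (y : ℝ) : quantile m y ∈ Icc (-1 : ℝ) 1 :=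
  (exists_quantile m y).choose_spec.1

theorem massTo_quantile (m : ℕ) (y : ℝ) :
    massTo m (quantile m y) = total m * max 0 (min 1 y) :=
  (exists_quantile m y).choose_spec.2

theorem quantile_zero (m : ℕ) : quantile m 0 = -1 :=
  (strictMono_massTo m).injOn (quantile_mem m 0) (left_mem_Icc.2 (by norm_num))
    (by rw [massTo_quantile, massTo_neg_one]; simp)

theorem quantile_one (m : ℕ) : quantile m 1 = 1 :=
  (strictMono_massTo m).injOn (quantile_mem m 1) (right_mem_Icc.2 (by norm_num))
    (by rw [massTo_quantile, total]; simp)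

theorem monotone_quantile (m : ℕ) : Monotone (quantile m) := fun x y hxy => by
  rw [← (strictMono_massTo m).le_iff_le (quantile_mem m x) (quantile_mem m y), massTo_quantile,
    massTo_quantile]
  exact mul_le_mul_of_nonneg_left (max_le_max le_rfl (min_le_min le_rfl hxy)) (total_pos m).le

theorem quantile_mem_Ioo (m : ℕ) {y : ℝ} (hy : y ∈ Ioo (0 : ℝ) 1) :
    quantile m y ∈ Ioo (-1 : ℝ) 1 := by
  have hclamp : max 0 (min 1 y) = y := by
    rw [min_eq_right hy.2.le, max_eq_right hy.1.le]
  have h := massTo_quantile m y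
  rw [hclamp] at h
  obtain ⟨h1, h2⟩ := quantile_mem m y
  refine ⟨lt_of_le_of_ne h1 fun e => ?_, lt_of_le_of_ne h2 fun e => ?_⟩
  · rw [← e, massTo_neg_one] at h
    nlinarith [total_pos m, hy.1]
  · rw [e, ← total] at h
    nlinarith [total_pos m, hy.2]

theorem continuous_quantile (m : ℕ) : Continuous (quantile m) := by
  have hsurj : ∀ x ∈ Icc (-1 : ℝ) 1, quantile m (massTo m x / total m) = x := fun x hx => by
    refine (strictMono_massTo m).injOn (quantile_mem m _) hx ?_
    have h0 := (strictMono_massTo m).monotoneOn (left_mem_Icc.2 (by norm_num)) hx hx.1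
    have h1 := (strictMono_massTo m).monotoneOn hx (right_mem_Icc.2 (by norm_num)) hx.2
    rw [massTo_neg_one] at h0
    rw [massTo_quantile, min_eq_right ((div_le_one (total_pos m)).2 h1),
      max_eq_right (div_nonneg h0 (total_pos m).le), mul_div_cancel₀ _ (total_pos m).ne']
  have hm : Monotone (Set.codRestrict (quantile m) (Icc (-1) 1) (quantile_mem m)) :=
    fun x y h => monotone_quantile m h
  have hs : Function.Surjective (Set.codRestrict (quantile m) (Icc (-1) 1) (quantile_mem m)) :=
    fun x => ⟨_, Subtype.ext (hsurj x.1 x.2)⟩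
  exact continuous_subtype_val.comp (hm.continuous_of_surjective hs)

theorem hasDerivAt_quantile (m : ℕ) {y : ℝ} (hy : y ∈ Ioo (0 : ℝ) 1) :
    HasDerivAt (quantile m) (total m / wgt m (quantile m y)) y := by
  have hw := wgt_pos m (quantile_mem_Ioo m hy)
  have h := HasDerivAt.of_local_left_inverse (g := quantile m)
    (f := fun s => massTo m s / total m) (f' := wgt m (quantile m y) / total m) (a := y)
    (continuous_quantile m).continuousAt ((hasDerivAt_massTo m _).div_const _)
    (div_ne_zero hw.ne' (total_pos m).ne') ?_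
  · rwa [inv_div] at h
  · filter_upwards [isOpen_Ioo.mem_nhds hy] with z hz
    rw [massTo_quantile, min_eq_right hz.2.le, max_eq_right hz.1.le,
      mul_div_cancel_left₀ _ (total_pos m).ne']

theorem contDiffAt_quantile (m : ℕ) {y : ℝ} (hy : y ∈ Ioo (0 : ℝ) 1) :
    ContDiffAt ℝ 1 (quantile m) y := by
  refine (ContDiffOn.contDiffAt ?_ (isOpen_Ioo.mem_nhds hy))
  rw [show (1 : WithTop ℕ∞) = 0 + 1 by rfl, contDiffOn_succ_iff_deriv_of_isOpen isOpen_Ioo]
  refine ⟨fun z hz => (hasDerivAt_quantile m hz).differentiableAt.differentiableWithinAt,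
    fun h => absurd h (by simp), ?_⟩
  rw [contDiffOn_zero]
  refine ((continuousOn_const (c := total m)).div
    ((continuous_wgt m).comp (continuous_quantile m)).continuousOn
    fun z hz => (wgt_pos m (quantile_mem_Ioo m hz)).ne').congr fun z hz => ?_
  exact (hasDerivAt_quantile m hz).deriv

/-- The marginal has mean zero: a primitive of `u * wgt m u`. -/
theorem hasDerivAt_moment (m : ℕ) {u : ℝ} (hu : u ∈ Ioo (-1 : ℝ) 1) :
    HasDerivAt (fun t => -(√(1 - t ^ 2) ^ (m + 2)) / (m + 2)) (u * wgt m u) u := by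
  have hp : 0 < 1 - u ^ 2 := by nlinarith [hu.1, hu.2]
  have h := ((((hasDerivAt_pow 2 u).const_sub 1).sqrt hp.ne').pow (m + 2)).neg.div_const ((m : ℝ) + 2)
  refine h.congr_deriv ?_
  rw [wgt_eq m (Ioo_subset_Icc_self hu)]
  have hs : √(1 - u ^ 2) ≠ 0 := (Real.sqrt_pos.2 hp).ne'
  simp only [show m + 2 - 1 = m + 1 by omega, pow_succ]
  push_cast
  field_simp

theorem unitBallVol_zero : unitBallVol 0 = 1 := by
  simp [unitBallVol, measureReal_def, volume_pi]

theorem measurableSet_ball_sq (n : ℕ) (r : ℝ) : MeasurableSet {y : Fin n → ℝ | ∑ i, y i ^ 2 < r} :=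
  (isOpen_lt (by fun_prop) continuous_const).measurableSet

theorem ball_sq_finite (n : ℕ) (r : ℝ) : volume {y : Fin n → ℝ | ∑ i, y i ^ 2 < r} ≠ ∞ := by
  refine measure_ne_top_of_subset ?_
    (Metric.isBounded_closedBall (x := (0 : Fin n → ℝ)) (r := |r| + 1)).measure_lt_top.ne
  intro y hy
  rw [Metric.mem_closedBall, dist_zero_right, pi_norm_le_iff_of_nonneg (by positivity)]
  intro i
  have h1 := Finset.single_le_sum (f := fun i => y i ^ 2) (fun j _ => sq_nonneg _) (Finset.mem_univ i)
  have h2 : y i ^ 2 < r := lt_of_le_of_lt h1 hy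
  rw [Real.norm_eq_abs]
  nlinarith [sq_abs (y i), abs_nonneg (y i), le_abs_self r, sq_nonneg (|y i| - 1)]

theorem volume_scaled_ball (n : ℕ) {r : ℝ} (hr : 0 ≤ r) :
    volume.real {y : Fin n → ℝ | ∑ i, y i ^ 2 < r ^ 2}
      = r ^ n * unitBallVol n ∨ r = 0 := by
  rcases hr.eq_or_lt with e | e
  · exact Or.inr e.symm
  refine Or.inl ?_
  have hset : {y : Fin n → ℝ | ∑ i, y i ^ 2 < r ^ 2}
      = r • {y : Fin n → ℝ | ∑ i, y i ^ 2 < 1} := by
    ext y
    rw [Set.mem_smul_set_iff_inv_smul_mem₀ e.ne']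
    simp only [mem_ofPred_eq, Pi.smul_apply, smul_eq_mul, mul_pow, ← Finset.mul_sum, inv_pow]
    rw [inv_mul_lt_iff₀ (by positivity), mul_one]
  rw [hset, measureReal_def, Measure.addHaar_smul, ENNReal.toReal_mul, unitBallVol, measureReal_def]
  simp [abs_of_nonneg hr, pow_nonneg hr]

theorem unitBallVol_succ (n : ℕ) : unitBallVol (n + 1) = unitBallVol n * total n := by
  set S := {y : Fin (n + 1) → ℝ | ∑ i, y i ^ 2 < 1}
  have hmp := (volume_preserving_piFinSuccAbove (fun _ : Fin (n + 1) => ℝ) 0).symm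
  set e := (MeasurableEquiv.piFinSuccAbove (fun _ : Fin (n + 1) => ℝ) 0).symm
  have hS : MeasurableSet S := measurableSet_ball_sq _ _
  have hpre : ∀ t : ℝ, Prod.mk t ⁻¹' (e ⁻¹' S) = {y : Fin n → ℝ | ∑ i, y i ^ 2 < 1 - t ^ 2} := by
    intro t
    ext y
    simp only [S, mem_preimage, mem_ofPred_eq, e, MeasurableEquiv.piFinSuccAbove_symm_apply,
      Fin.insertNthEquiv_apply, Fin.sum_univ_succ, Fin.insertNth_zero', Fin.cons_zero, Fin.cons_succ]
    constructor <;> intro h <;> linarith
  have hvol : ∀ t : ℝ, volume.real {y : Fin n → ℝ | ∑ i, y i ^ 2 < 1 - t ^ 2}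
      = (Ioo (-1 : ℝ) 1).indicator (fun t => unitBallVol n * wgt n t) t := by
    intro t
    by_cases ht : t ∈ Ioo (-1 : ℝ) 1
    · have hp : 0 < 1 - t ^ 2 := by nlinarith [ht.1, ht.2]
      rw [indicator_of_mem ht, wgt_eq n (Ioo_subset_Icc_self ht)]
      rcases volume_scaled_ball n (Real.sqrt_nonneg (1 - t ^ 2)) with h | h
      · rw [Real.sq_sqrt hp.le] at h
        rw [h, mul_comm]
      · exact absurd h (Real.sqrt_pos.2 hp).ne'
    · rw [indicator_of_notMem ht]
      have h1 : 1 - t ^ 2 ≤ 0 := by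
        simp only [mem_Ioo, not_and_or, not_lt] at ht
        rcases ht with h | h <;> nlinarith
      rw [show {y : Fin n → ℝ | ∑ i, y i ^ 2 < 1 - t ^ 2} = ∅ from Set.eq_empty_of_forall_notMem
        fun y hy => absurd (Finset.sum_nonneg fun i _ => sq_nonneg (y i)) (by
          simp only [mem_ofPred_eq] at hy; linarith)]
      simp
  have hpreS : MeasurableSet (e ⁻¹' S) := e.measurable hS
  have hfin : volume (e ⁻¹' S) ≠ ∞ := by
    rw [hmp.measure_preimage hS.nullMeasurableSet]; exact ball_sq_finite _ _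
  have h1 : unitBallVol (n + 1) = ∫ t, volume.real (Prod.mk t ⁻¹' (e ⁻¹' S)) := by
    rw [unitBallVol, measureReal_def, ← hmp.measure_preimage hS.nullMeasurableSet]
    have h := Measure.prod_apply (μ := (volume : Measure ℝ)) (ν := (volume : Measure (Fin n → ℝ))) hpreS
    simp only [measureReal_def]
    rw [show volume (e ⁻¹' S) = ((volume : Measure ℝ).prod (volume : Measure (Fin n → ℝ))) (e ⁻¹' S)
      from rfl, h, integral_toReal (measurable_measure_prodMk_left hpreS).aemeasurable]
    exact ae_lt_top (measurable_measure_prodMk_left hpreS) (h ▸ hfin)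
  rw [h1]
  simp only [hpre, hvol]
  rw [MeasureTheory.integral_indicator measurableSet_Ioo, MeasureTheory.integral_const_mul, total, massTo,
    intervalIntegral.integral_of_le (by norm_num), integral_Ioc_eq_integral_Ioo]

theorem unitBallVol_eq_prod : ∀ n : ℕ, unitBallVol n = ∏ k ∈ Finset.range n, total k
  | 0 => by simp [unitBallVol_zero]
  | n + 1 => by rw [unitBallVol_succ, Finset.prod_range_succ, unitBallVol_eq_prod n]

theorem unitBallVol_pos (n : ℕ) : 0 < unitBallVol n := by
  rw [unitBallVol_eq_prod]; exact Finset.prod_pos fun k _ => total_pos k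

end

end Vale.Agent.P219.Frame
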