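import Mathlib

/-!
# P219: metrics with a triangular orthonormal frame

On `ℝⁿ` a triangular frame is given by vector fields `aₖ` whose `j`th component is `0` for `j < k`
and positive for `j = k`. The volume of the metric making the frame orthonormal has density
`volDens a`, the inverse of the product of the diagonal components.
-/

open MeasureTheory Set
open scoped ENNReal

namespace Vale.Agent.P219.Frame

noncomputable section

variable {n : ℕ}

/-- A triangular frame: `a k x j` is the `j`th component of the `k`th field at `x`. -/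
structure IsTriFrame (a : Fin n → (Fin n → ℝ) → Fin n → ℝ) : Prop where
  smooth : ∀ k, ContDiff ℝ 1 (a k)
  diag : ∀ k x, 0 < a k x k
  upper : ∀ k j x, j < k → a k x j = 0

/-- The divergence for Lebesgue measure. -/
def divergence (W : (Fin n → ℝ) → Fin n → ℝ) (x : Fin n → ℝ) : ℝ :=
  ∑ j, fderiv ℝ (fun y => W y j) x (Pi.single j 1)

/-- The density of the volume of the metric in which the frame is orthonormal. -/
def volDens (a : Fin n → (Fin n → ℝ) → Fin n → ℝ) (x : Fin n → ℝ) : ℝ := (∏ k, a k x k)⁻¹

/-- The volume in the metric of the frame. -/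
def gVol (a : Fin n → (Fin n → ℝ) → Fin n → ℝ) (E : Set (Fin n → ℝ)) : ℝ :=
  ∫ x in E, volDens a x

/-- The divergence of a field in the metric of the frame. -/
def gDiv (a : Fin n → (Fin n → ℝ) → Fin n → ℝ) (W : (Fin n → ℝ) → Fin n → ℝ) (x : Fin n → ℝ) : ℝ :=
  divergence (fun y => volDens a y • W y) x / volDens a x

/-- The divergence of each field of the frame depends only on the coordinates up to its own, and is
nondecreasing in its own coordinate. -/
def MonotoneDiv (a : Fin n → (Fin n → ℝ) → Fin n → ℝ) : Prop :=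
  ∀ k (x y : Fin n → ℝ), (∀ i, i < k → x i = y i) → x k ≤ y k → gDiv a (a k) x ≤ gDiv a (a k) y

/-- The vector field with coefficients `Y` in the frame. -/
def combine (a : Fin n → (Fin n → ℝ) → Fin n → ℝ) (Y : (Fin n → ℝ) → Fin n → ℝ)
    (x : Fin n → ℝ) (j : Fin n) : ℝ :=
  ∑ k, Y x k * a k x j

/-- The frame multiplied by the volume density. -/
def dens (a : Fin n → (Fin n → ℝ) → Fin n → ℝ) (k : Fin n) (x : Fin n → ℝ) : Fin n → ℝ :=
  volDens a x • a k x

/-- The supremum of the integral of the Lebesgue divergence of the combinations of the fields with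
coefficients of length at most one. -/
def fluxSup (b : Fin n → (Fin n → ℝ) → Fin n → ℝ) (E : Set (Fin n → ℝ)) : ℝ≥0∞ :=
  ⨆ (Y : (Fin n → ℝ) → Fin n → ℝ)
    (_ : ContDiff ℝ 1 Y ∧ HasCompactSupport Y ∧ ∀ x, ∑ k, Y x k ^ 2 ≤ 1),
    ENNReal.ofReal (∫ x in E, divergence (combine b Y) x)

/-- The perimeter in the metric of the frame: the supremum of the integral, for the volume of the
metric, of the divergence over compactly supported fields of length at most one. -/
def gPer (a : Fin n → (Fin n → ℝ) → Fin n → ℝ) (E : Set (Fin n → ℝ)) : ℝ≥0∞ := fluxSup (dens a) E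

/-- The volume of the euclidean unit ball of dimension `n`. -/
def unitBallVol (n : ℕ) : ℝ := volume.real {y : Fin n → ℝ | ∑ i, y i ^ 2 < 1}

theorem volDens_pos {a : Fin n → (Fin n → ℝ) → Fin n → ℝ} (ha : IsTriFrame a) (x : Fin n → ℝ) :
    0 < volDens a x :=
  inv_pos.2 (Finset.prod_pos fun k _ => ha.diag k x)

theorem contDiff_volDens {a : Fin n → (Fin n → ℝ) → Fin n → ℝ} (ha : IsTriFrame a) :
    ContDiff ℝ 1 (volDens a) := by
  have h : ContDiff ℝ 1 fun x => ∏ k, a k x k :=
    contDiff_prod fun k _ => contDiff_pi.1 (ha.smooth k) k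
  exact h.inv fun x => (Finset.prod_pos fun k _ => ha.diag k x).ne'

theorem isTriFrame_dens {a : Fin n → (Fin n → ℝ) → Fin n → ℝ} (ha : IsTriFrame a) :
    IsTriFrame (dens a) where
  smooth k := (contDiff_volDens ha).smul (ha.smooth k)
  diag k x := mul_pos (volDens_pos ha x) (ha.diag k x)
  upper k j x h := by simp [dens, ha.upper k j x h]

end

end Vale.Agent.P219.Frame
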