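import Vale.Agent.P219.Frame.Knothe

/-!
# P219: the divergence of the triangular field
-/

open MeasureTheory Set Function Filter Topology Finset

namespace Vale.Agent.P219.Frame

noncomputable section

variable {n : ℕ} {a : Fin n → (Fin n → ℝ) → Fin n → ℝ}

theorem continuous_divergence {W : (Fin n → ℝ) → Fin n → ℝ} (hW : ContDiff ℝ 1 W) :
    Continuous (divergence W) :=
  continuous_finsetSum _ fun j _ =>
    ((contDiff_pi.1 hW j).continuous_fderiv one_ne_zero).clm_apply continuous_const

theorem hasDerivAt_line {g : (Fin n → ℝ) → ℝ} {x : Fin n → ℝ} (hg : DifferentiableAt ℝ g x)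
    (j : Fin n) :
    HasDerivAt (fun t => g (Function.update x j t)) (fderiv ℝ g x (Pi.single j 1)) (x j) := by
  have h := hg.hasFDerivAt
  exact HasFDerivAt.comp_hasDerivAt_of_eq (x j) h (hasDerivAt_update x j (x j)) (update_eq_self j x).symm

theorem divergence_combine (ha : IsTriFrame a) {Y : (Fin n → ℝ) → Fin n → ℝ} {x : Fin n → ℝ}
    (hY : DifferentiableAt ℝ Y x)
    (hdep : ∀ k j : Fin n, k < j → fderiv ℝ (fun y => Y y k) x (Pi.single j 1) = 0) :
    divergence (combine a Y) x
      = ∑ k, (a k x k * fderiv ℝ (fun y => Y y k) x (Pi.single k 1)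
        + Y x k * divergence (a k) x) := by
  have hY' : ∀ k, DifferentiableAt ℝ (fun y => Y y k) x := fun k => differentiableAt_pi.1 hY k
  have ha' : ∀ k j, DifferentiableAt ℝ (fun y => a k y j) x := fun k j =>
    differentiableAt_pi.1 ((ha.smooth k).differentiable one_ne_zero x) j
  have hj : ∀ j, fderiv ℝ (fun y => combine a Y y j) x (Pi.single j 1)
      = ∑ k, (a k x j * fderiv ℝ (fun y => Y y k) x (Pi.single j 1)
        + Y x k * fderiv ℝ (fun y => a k y j) x (Pi.single j 1)) := fun j => by
    simp only [combine]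
    have hd : ∀ k ∈ (Finset.univ : Finset (Fin n)), DifferentiableAt ℝ (fun y => Y y k * a k y j) x :=
      fun k _ => (hY' k).mul (ha' k j)
    rw [fderiv_fun_sum hd, _root_.sum_apply]
    refine Finset.sum_congr rfl fun k _ => ?_
    rw [fderiv_fun_mul (hY' k) (ha' k j)]
    simp [add_comm]
  unfold divergence
  simp only [hj]
  rw [Finset.sum_comm]
  refine Finset.sum_congr rfl fun k _ => ?_
  rw [Finset.sum_add_distrib, Finset.mul_sum]
  congr 1
  rw [Finset.sum_eq_single k (fun j _ hjk => ?_) (fun h => absurd (Finset.mem_univ k) h)]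
  rcases lt_or_gt_of_ne hjk with h | h
  · rw [ha.upper k j x h, zero_mul]
  · rw [hdep k j h, mul_zero]

theorem dens_divergence (ha : IsTriFrame a) (k : Fin n) (x : Fin n → ℝ) :
    divergence (dens a k) x = volDens a x * gDiv a (a k) x :=
  ((mul_comm _ _).trans (div_mul_cancel₀ (G₀ := ℝ) _ (volDens_pos ha x).ne')).symm

theorem continuous_gDiv (ha : IsTriFrame a) (k : Fin n) : Continuous (gDiv a (a k)) :=
  (continuous_divergence ((isTriFrame_dens ha).smooth k)).div (contDiff_volDens ha).continuous
    fun x => (volDens_pos ha x).ne'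

theorem depBelow_divergence (hmono : MonotoneDiv a) (k : Fin n) :
    DepBelow (k + 1) (gDiv a (a k)) := fun x y h =>
  le_antisymm
    (hmono k x y (fun i hi => h i (Nat.lt_succ_of_lt hi)) (h k (Nat.lt_succ_self _)).le)
    (hmono k y x (fun i hi => (h i (Nat.lt_succ_of_lt hi)).symm) (h k (Nat.lt_succ_self _)).ge)

/-- The triangular field of a density on a cube. -/
theorem exists_map (hn : 0 < n) (ha : IsTriFrame a) (hmono : MonotoneDiv a) {L : ℝ} (hL : 0 < L)
    {ρ : (Fin n → ℝ) → ℝ} (hρ : ContDiff ℝ 1 ρ) (hpos : ∀ x, 0 < ρ x) :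
    0 < ∫ x in obox n L, ρ x ∧
    ∃ T : (Fin n → ℝ) → Fin n → ℝ, Continuous T ∧ (∀ x, ∑ k, T x k ^ 2 ≤ 1) ∧
      (∀ x ∈ obox n L, ContDiffAt ℝ 1 T x ∧
        volDens a x *
            (n * (unitBallVol n * ρ x / ((∫ y in obox n L, ρ y) * volDens a x)) ^ ((n : ℝ)⁻¹)
              + ∑ k, T x k * gDiv a (a k) x) ≤ divergence (combine (dens a) T) x) ∧
      ∀ k, 0 ≤ ∫ x in obox n L, ρ x * (gDiv a (a k) x * T x k) := by
  have hvol : volume.real (obox n L) = (2 * L) ^ n := by
    rw [measureReal_def, obox, Real.volume_pi_Ioo_toReal (by intro i; linarith)]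
    simp [two_mul]
  have hM : ∀ x, marg L ρ 0 x = ∫ y in obox n L, ρ y := fun x => by
    have h := marg_integral hρ hL (φ := fun _ => (1 : ℝ)) continuous_const (j₀ := 0)
      (fun _ _ _ => rfl) (Nat.zero_le n) le_rfl
    simp only [mul_one, marg_dep L ρ (Nat.zero_le n) _ x (fun i hi => absurd hi (Nat.not_lt_zero _))] at h
    rw [setIntegral_const, smul_eq_mul, hvol, Nat.sub_zero] at h
    exact mul_left_cancel₀ (pow_ne_zero n (by positivity)) h
  have hMpos : 0 < ∫ y in obox n L, ρ y := hM 0 ▸ marg_pos hρ hpos hL (Nat.zero_le n) 0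
  refine ⟨hMpos, triMap L ρ, continuous_triMap hρ hpos hL, triMap_sq_le, fun x hx => ?_, fun k => ?_⟩
  · have hT := contDiffAt_triMap hρ hpos hL hx
    have hTk : ∀ k, DifferentiableAt ℝ (fun y => triMap L ρ y k) x := fun k =>
      differentiableAt_pi.1 (hT.differentiableAt one_ne_zero) k
    have hdiag : ∀ k, fderiv ℝ (fun y => triMap L ρ y k) x (Pi.single k 1) = partialSelf L ρ k x :=
      fun k => (hasDerivAt_line (hTk k) k).unique (hasDerivAt_triMap_line hρ hpos hL hx k)
    have hoff : ∀ k j : Fin n, k < j → fderiv ℝ (fun y => triMap L ρ y k) x (Pi.single j 1) = 0 :=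
      fun k j hkj => (hasDerivAt_line (hTk k) j).unique (by
        have h := (triMap_dep (L := L) (ρ := ρ) k).update (i := j) hkj x
        simp only [h]
        exact hasDerivAt_const _ _)
    refine ⟨hT, ?_⟩
    rw [divergence_combine (isTriFrame_dens ha) (hT.differentiableAt one_ne_zero) hoff,
      Finset.sum_add_distrib, Finset.sum_congr rfl fun k _ => congrArg (dens a k x k * ·) (hdiag k),
      mul_add, Finset.mul_sum _ _ (volDens a x)]
    refine add_le_add ?_ (le_of_eq (Finset.sum_congr rfl fun k _ => by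
      rw [dens_divergence ha k x]; ring))
    have hv := volDens_pos ha x
    have hnn : ∀ k, 0 ≤ a k x k * partialSelf L ρ k x := fun k =>
      mul_nonneg (ha.diag k x).le <|
      mul_nonneg (radius_pos hρ hpos hL hx _).le (mul_nonneg
        (div_nonneg (total_pos _).le (wgt_nonneg _ _))
        (div_nonneg (marg_pos hρ hpos hL k.2 x).le (marg_pos hρ hpos hL k.2.le x).le))
    have hcard : ∑ _k : Fin n, (1 : ℝ) = n := by simp
    have h := Real.geom_mean_le_arith_mean Finset.univ (fun _ => (1 : ℝ))
      (fun k => a k x k * partialSelf L ρ k x) (fun _ _ => zero_le_one)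
      (by rw [hcard]; exact_mod_cast hn) fun k _ => hnn k
    simp only [Real.rpow_one, one_mul, hcard] at h
    have he : ∏ k, a k x k * partialSelf L ρ k x
        = unitBallVol n * ρ x / ((∫ y in obox n L, ρ y) * volDens a x) := by
      rw [Finset.prod_mul_distrib, prod_partialSelf hρ hpos hL hx, hM x, volDens]
      have := (Finset.prod_pos fun k (_ : k ∈ Finset.univ) => ha.diag k x).ne'
      field_simp
    rw [he, le_div_iff₀ (by exact_mod_cast hn)] at h
    calc volDens a x * (n * (unitBallVol n * ρ x / ((∫ y in obox n L, ρ y) * volDens a x))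
          ^ ((n : ℝ)⁻¹)) ≤ volDens a x * ∑ k, a k x k * partialSelf L ρ k x :=
          mul_le_mul_of_nonneg_left (by linarith) hv.le
      _ = ∑ k, dens a k x k * partialSelf L ρ k x := by
          rw [Finset.mul_sum]
          exact Finset.sum_congr rfl fun k _ => by simp [dens]; ring
  · have hc : Continuous (gDiv a (a k)) := continuous_gDiv ha k
    set φ := fun y => gDiv a (a k) y * triMap L ρ y k
    have hφ : Continuous φ :=
      hc.mul ((continuous_apply k).comp (continuous_triMap hρ hpos hL))
    have hdep : DepBelow (k + 1) φ := fun x y h => by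
      simp only [φ, depBelow_divergence hmono k x y h, triMap_dep k x y h]
    have hk := marg_integral hρ hL hφ hdep (j := k + 1) k.2 le_rfl
    have hl := integral_lineInt hL (g := fun y => marg L ρ (k + 1) y * φ y)
      ((marg_smooth hρ k.2).continuous.mul hφ) k
    have hge : 0 ≤ ∫ x in obox n L, lineInt L k (fun y => marg L ρ (k + 1) y * φ y) x :=
      setIntegral_nonneg (measurableSet_obox n L) fun x hx =>
        line_integral_nonneg hρ hpos hL hx k hc fun s t hst =>
          hmono k _ _ (fun i hi => by rw [update_of_ne hi.ne, update_of_ne hi.ne]) (by simpa using hst)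
    rw [hl, hk] at hge
    exact (mul_nonneg_iff_of_pos_left (by positivity)).1
      ((mul_nonneg_iff_of_pos_left (by linarith)).1 hge)

end

end Vale.Agent.P219.Frame
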