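import Vale.Agent.P219.Frame.Main

/-!
# P219: semidirect products of a line with a Euclidean space, and warped metrics
-/

open MeasureTheory Set Function Finset

namespace Vale.Agent.P219.Frame

noncomputable section

variable {n : ℕ}

/-- The left invariant orthonormal frame of the semidirect product of the line with euclidean space
given by the matrix `D`, in coordinates with volume equal to Lebesgue measure: the field of index
zero is the coordinate field plus the linear field of `D`, the others are coordinate fields. -/
def semiFrame (D : Fin n → Fin n → ℝ) (k : Fin (n + 1)) (x : Fin (n + 1) → ℝ) :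
    Fin (n + 1) → ℝ :=
  if k = 0 then Fin.cons 1 fun i => ∑ j, D i j * x j.succ else Pi.single k 1

theorem isTriFrame_semiFrame (D : Fin n → Fin n → ℝ) : IsTriFrame (semiFrame D) where
  smooth k := by
    unfold semiFrame
    split_ifs with h
    · refine contDiff_pi.2 fun i => ?_
      refine Fin.cases ?_ (fun i => ?_) i
      · simpa using contDiff_const
      · simp only [Fin.cons_succ]
        exact ContDiff.sum fun j _ => contDiff_const.mul (contDiff_apply ℝ ℝ j.succ)
    · exact contDiff_const
  diag k x := by
    unfold semiFrame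
    split_ifs with h
    · subst h; simp
    · simp
  upper k j x hj := by
    unfold semiFrame
    split_ifs with h
    · subst h; exact absurd hj (Fin.not_lt_zero j)
    · exact Pi.single_eq_of_ne hj.ne _

theorem divergence_semiFrame (D : Fin n → Fin n → ℝ) (k : Fin (n + 1)) (x : Fin (n + 1) → ℝ) :
    divergence (semiFrame D k) x = if k = 0 then ∑ i, D i i else 0 := by
  unfold semiFrame divergence
  split_ifs with h
  · rw [Fin.sum_univ_succ]
    simp only [Fin.cons_zero, Fin.cons_succ, fderiv_fun_const, Pi.zero_apply,
      _root_.zero_apply, zero_add]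
    refine Finset.sum_congr rfl fun i _ => ?_
    have hj : ∀ j ∈ (Finset.univ : Finset (Fin n)), HasFDerivAt (fun y : Fin (n + 1) → ℝ => D i j * y j.succ)
        (D i j • ContinuousLinearMap.proj (R := ℝ) (φ := fun _ : Fin (n + 1) => ℝ) j.succ) x :=
      fun j _ => (hasFDerivAt_apply j.succ x).const_mul _
    rw [(HasFDerivAt.fun_sum hj).fderiv, _root_.sum_apply]
    simp [Pi.single_apply]
  · simp

theorem volDens_semiFrame (D : Fin n → Fin n → ℝ) (x : Fin (n + 1) → ℝ) :
    volDens (semiFrame D) x = 1 := by
  rw [volDens, inv_eq_one]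
  refine Finset.prod_eq_one fun k _ => ?_
  unfold semiFrame
  split_ifs with h
  · subst h; simp
  · simp

theorem monotoneDiv_semiFrame (D : Fin n → Fin n → ℝ) : MonotoneDiv (semiFrame D) :=
  fun k x y _ _ => by
    simp only [gDiv, volDens_semiFrame, one_smul, div_one]
    rw [divergence_semiFrame, divergence_semiFrame]

/-- The orthonormal frame of the metric `dt² + ∑ φᵢ(yᵢ, t)² dyᵢ²`, the coordinate `t` being the
last one. -/
def warpFrame (φ : Fin n → ℝ → ℝ → ℝ) (k : Fin (n + 1)) (x : Fin (n + 1) → ℝ) : Fin (n + 1) → ℝ :=
  Fin.lastCases (Pi.single (Fin.last n) 1)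
    (fun i => Pi.single i.castSucc (φ i (x i.castSucc) (x (Fin.last n)))⁻¹) k

section warp

variable {φ : Fin n → ℝ → ℝ → ℝ} (hφ : ∀ i, ContDiff ℝ 1 fun p : ℝ × ℝ => φ i p.1 p.2)
  (hpos : ∀ i y t, 0 < φ i y t)
include hφ hpos

omit hpos in
theorem contDiff_warp (i : Fin n) :
    ContDiff ℝ 1 fun x : Fin (n + 1) → ℝ => φ i (x i.castSucc) (x (Fin.last n)) :=
  (hφ i).comp ((contDiff_apply ℝ ℝ i.castSucc).prodMk (contDiff_apply ℝ ℝ (Fin.last n)))

theorem isTriFrame_warpFrame : IsTriFrame (warpFrame φ) where
  smooth k := by
    induction k using Fin.lastCases with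
    | last => unfold warpFrame; simp only [Fin.lastCases_last]; exact contDiff_const
    | cast i =>
      unfold warpFrame
      simp only [Fin.lastCases_castSucc]
      exact contDiff_pi.2 fun j => by
        simp only [Pi.single_apply]
        split_ifs
        · exact (contDiff_warp hφ i).inv fun x => (hpos i _ _).ne'
        · exact contDiff_const
  diag k x := by
    induction k using Fin.lastCases with
    | last => simp [warpFrame]
    | cast i => simp [warpFrame, hpos]
  upper k j x h := by
    induction k using Fin.lastCases with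
    | last => simp [warpFrame, h.ne]
    | cast i => simp [warpFrame, h.ne]

omit hφ hpos in
theorem volDens_warpFrame (x : Fin (n + 1) → ℝ) :
    volDens (warpFrame φ) x = ∏ i, φ i (x i.castSucc) (x (Fin.last n)) := by
  rw [volDens, Fin.prod_univ_castSucc]
  simp [warpFrame]

theorem gDiv_warpFrame_cast (i : Fin n) (x : Fin (n + 1) → ℝ) :
    gDiv (warpFrame φ) (warpFrame φ i.castSucc) x = 0 := by
  have hT := isTriFrame_warpFrame hφ hpos
  have hd := (isTriFrame_dens hT).smooth i.castSucc
  rw [gDiv, div_eq_zero_iff]
  refine Or.inl (Finset.sum_eq_zero fun j _ => ?_)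
  refine (hasDerivAt_line ((contDiff_pi.1 hd j).differentiable one_ne_zero x) j).unique ?_
  rcases eq_or_ne j i.castSucc with rfl | hj
  · have he : ∀ t, dens (warpFrame φ) i.castSucc (Function.update x i.castSucc t) i.castSucc
        = ∏ l ∈ Finset.univ.erase i, φ l (x l.castSucc) (x (Fin.last n)) := fun t => by
      simp only [dens, Pi.smul_apply, smul_eq_mul, volDens_warpFrame]
      rw [← Finset.mul_prod_erase Finset.univ _ (Finset.mem_univ i)]
      simp only [warpFrame, Fin.lastCases_castSucc, Pi.single_eq_same, update_self,
        update_of_ne (Fin.castSucc_ne_last i).symm]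
      rw [mul_comm, ← mul_assoc, inv_mul_cancel₀ (hpos i _ _).ne', one_mul]
      refine Finset.prod_congr rfl fun l hl => ?_
      rw [update_of_ne (fun e => (Finset.mem_erase.1 hl).1 (Fin.castSucc_injective n e))]
    simp only [he]
    exact hasDerivAt_const _ _
  · have he : ∀ t, dens (warpFrame φ) i.castSucc (Function.update x j t) j = 0 := fun t => by
      simp [dens, warpFrame, hj]
    simp only [he]
    exact hasDerivAt_const _ _

theorem gDiv_warpFrame_last (x : Fin (n + 1) → ℝ) :
    gDiv (warpFrame φ) (warpFrame φ (Fin.last n)) x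
      = ∑ i, deriv (φ i (x i.castSucc)) (x (Fin.last n))
          / φ i (x i.castSucc) (x (Fin.last n)) := by
  have hT := isTriFrame_warpFrame hφ hpos
  have hd := (isTriFrame_dens hT).smooth (Fin.last n)
  have hne : ∀ i, φ i (x i.castSucc) (x (Fin.last n)) ≠ 0 := fun i => (hpos i _ _).ne'
  have hdiv : divergence (dens (warpFrame φ) (Fin.last n)) x
      = (∏ i, φ i (x i.castSucc) (x (Fin.last n))) * ∑ i,
          deriv (φ i (x i.castSucc)) (x (Fin.last n)) / φ i (x i.castSucc) (x (Fin.last n)) := by
    rw [divergence, Finset.sum_eq_single (Fin.last n) (fun j _ hj => ?_)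
      (fun h => absurd (Finset.mem_univ _) h)]
    · refine (hasDerivAt_line ((contDiff_pi.1 hd _).differentiable one_ne_zero x) _).unique ?_
      have he : ∀ t, dens (warpFrame φ) (Fin.last n) (Function.update x (Fin.last n) t) (Fin.last n)
          = ∏ i, φ i (x i.castSucc) t := fun t => by
        simp [dens, warpFrame, volDens_warpFrame]
      simp only [he]
      have hi : ∀ i ∈ (Finset.univ : Finset (Fin n)), HasDerivAt (φ i (x i.castSucc))
          (deriv (φ i (x i.castSucc)) (x (Fin.last n))) (x (Fin.last n)) := fun i _ =>
        ((((hφ i).comp (contDiff_const.prodMk contDiff_id)).differentiable one_ne_zero) _).hasDerivAt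
      refine (HasDerivAt.fun_finsetProd hi).congr_deriv ?_
      rw [Finset.mul_sum]
      refine Finset.sum_congr rfl fun i _ => ?_
      rw [← Finset.mul_prod_erase Finset.univ _ (Finset.mem_univ i), smul_eq_mul]
      have := hne i
      field_simp
    · refine (hasDerivAt_line ((contDiff_pi.1 hd j).differentiable one_ne_zero x) j).unique ?_
      have he : ∀ t, dens (warpFrame φ) (Fin.last n) (Function.update x j t) j = 0 := fun t => by
        simp [dens, warpFrame, hj]
      simp only [he]
      exact hasDerivAt_const _ _
  rw [gDiv, volDens_warpFrame, show divergence (fun y => volDens (warpFrame φ) y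
    • warpFrame φ (Fin.last n) y) x = divergence (dens (warpFrame φ) (Fin.last n)) x from rfl, hdiv,
    mul_div_cancel_left₀ _ (Finset.prod_ne_zero_iff.2 fun i _ => hne i)]

theorem monotoneDiv_warpFrame
    (hlog : ∀ i y, Monotone fun t => deriv (φ i y) t / φ i y t) : MonotoneDiv (warpFrame φ) := by
  intro k x y hbelow hk
  induction k using Fin.lastCases with
  | last =>
    rw [gDiv_warpFrame_last hφ hpos, gDiv_warpFrame_last hφ hpos]
    refine Finset.sum_le_sum fun i _ => ?_
    rw [hbelow i.castSucc (Fin.castSucc_lt_last i)]
    exact hlog i _ hk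
  | cast i => rw [gDiv_warpFrame_cast hφ hpos, gDiv_warpFrame_cast hφ hpos]

end warp

end

end Vale.Agent.P219.Frame
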