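import Vale.Agent.P219.Frame.Main

/-!
# P219: left invariant frames of groups with triangular left translations

Simply connected solvable groups are of this kind in coordinates of the second kind.
-/

open MeasureTheory Set Function Finset Matrix

namespace Vale.Agent.P219.Frame

noncomputable section

variable {n : ℕ}

/-- A smooth group law on `ℝⁿ` with neutral element the origin whose left translations are
triangular: the `k`th component of a translate is the `k`th coordinate plus a function of the
earlier ones. -/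
structure IsTriGroup (op : (Fin n → ℝ) → (Fin n → ℝ) → Fin n → ℝ) : Prop where
  smooth : ContDiff ℝ 2 fun p : (Fin n → ℝ) × (Fin n → ℝ) => op p.1 p.2
  neutral : ∀ g, op g 0 = g
  assoc : ∀ g h x, op g (op h x) = op (op g h) x
  tri : ∀ g x y k, (∀ i, i < k → x i = y i) → op g x k - x k = op g y k - y k

/-- The left invariant frame with value `B` at the origin. -/
def leftFrame (op : (Fin n → ℝ) → (Fin n → ℝ) → Fin n → ℝ) (B : Fin n → Fin n → ℝ) (k : Fin n)
    (g : Fin n → ℝ) : Fin n → ℝ :=
  fderiv ℝ (op g) 0 (B k)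

variable {op : (Fin n → ℝ) → (Fin n → ℝ) → Fin n → ℝ} (hop : IsTriGroup op)
include hop

theorem contDiff_op (g : Fin n → ℝ) : ContDiff ℝ 2 (op g) :=
  hop.smooth.comp (contDiff_const.prodMk contDiff_id)

theorem fderiv_op_single (g x : Fin n → ℝ) {i j : Fin n} (h : j ≤ i) :
    fderiv ℝ (op g) x (Pi.single i 1) j = if j = i then 1 else 0 := by
  have hd : DifferentiableAt ℝ (op g) x := (contDiff_op hop g).differentiable two_ne_zero x
  have hl : HasDerivAt (fun t => op g (Function.update x i t) j)
      (fderiv ℝ (op g) x (Pi.single i 1) j) (x i) :=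
    hasDerivAt_pi.1 (hd.hasFDerivAt.comp_hasDerivAt_of_eq (x i) (hasDerivAt_update x i (x i))
      (update_eq_self i x).symm) j
  have he : (fun t => op g (Function.update x i t) j)
      = fun t => Function.update x i t j + (op g x j - x j) := funext fun t => by
    have := hop.tri g (Function.update x i t) x j fun l hl =>
      update_of_ne (ne_of_lt (hl.trans_le h)) _ _
    linarith
  rw [he] at hl
  refine hl.unique ?_
  rcases eq_or_ne j i with rfl | hne
  · simpa using (hasDerivAt_id (x j)).add_const (op g x j - x j)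
  · simpa [hne] using hasDerivAt_const (x i) (x j + (op g x j - x j))

theorem fderiv_op_apply (g x v : Fin n → ℝ) (j : Fin n) (hv : ∀ i, i < j → v i = 0) :
    fderiv ℝ (op g) x v j = v j := by
  conv_lhs => rw [show v = ∑ i, v i • (Pi.single i 1 : Fin n → ℝ) from pi_eq_sum_univ' v]
  rw [map_sum, Finset.sum_apply]
  simp only [map_smul, Pi.smul_apply, smul_eq_mul]
  rw [Finset.sum_eq_single j (fun i _ hi => ?_) (fun h => absurd (Finset.mem_univ j) h),
    fderiv_op_single hop g x le_rfl, if_pos rfl, mul_one]
  rcases lt_or_gt_of_ne hi with h | h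
  · rw [hv i h, zero_mul]
  · rw [fderiv_op_single hop g x h.le, if_neg h.ne, mul_zero]

variable {B : Fin n → Fin n → ℝ} (hB : ∀ k, 0 < B k k) (hB0 : ∀ k j, j < k → B k j = 0)
include hB hB0

omit hB in
theorem leftFrame_apply (k j : Fin n) (g : Fin n → ℝ) (h : j ≤ k) :
    leftFrame op B k g j = B k j :=
  fderiv_op_apply hop g 0 _ j fun i hi => hB0 k i (hi.trans_le h)

theorem isTriFrame_leftFrame : IsTriFrame (leftFrame op B) where
  smooth k := ContDiff.fderiv_apply (n := 1) (m := 2) (f := op) hop.smooth contDiff_const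
    contDiff_const (by norm_num)
  diag k x := by rw [leftFrame_apply hop hB0 k k x le_rfl]; exact hB k
  upper k j x h := by rw [leftFrame_apply hop hB0 k j x h.le]; exact hB0 k j h

omit hB hB0 in
/-- The frame is invariant under the left translations. -/
theorem leftFrame_invariant (k : Fin n) (g h : Fin n → ℝ) :
    leftFrame op B k (op g h) = fderiv ℝ (op g) h (leftFrame op B k h) := by
  have he : op (op g h) = op g ∘ op h := funext fun x => (hop.assoc g h x).symm
  simp only [leftFrame, he]
  rw [fderiv_comp (0 : Fin n → ℝ) ((contDiff_op hop g).differentiable two_ne_zero _)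
    ((contDiff_op hop h).differentiable two_ne_zero _), hop.neutral]
  rfl

omit hB in
theorem volDens_leftFrame (x : Fin n → ℝ) : volDens (leftFrame op B) x = (∏ k, B k k)⁻¹ := by
  simp only [volDens, leftFrame_apply hop hB0 _ _ x le_rfl]

theorem divergence_leftFrame (k : Fin n) (g : Fin n → ℝ) :
    divergence (leftFrame op B k) g = divergence (leftFrame op B k) 0 := by
  set a := leftFrame op B k
  have ha : ContDiff ℝ 1 a := (isTriFrame_leftFrame hop hB hB0).smooth k
  set J := fun x => fderiv ℝ (op g) x
  have hJ : Differentiable ℝ J :=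
    ((contDiff_op hop g).fderiv_right (m := 1) le_rfl).differentiable one_ne_zero
  have hinv : (fun x => a (op g x)) = fun x => J x (a x) :=
    funext fun x => leftFrame_invariant hop k g x
  have hd1 := ((ha.differentiable one_ne_zero (op g 0)).hasFDerivAt).comp (0 : Fin n → ℝ)
    ((contDiff_op hop g).differentiable two_ne_zero 0).hasFDerivAt
  have hd2 := (hJ 0).hasFDerivAt.clm_apply (ha.differentiable one_ne_zero 0).hasFDerivAt
  have hd1' : HasFDerivAt (fun x => J x (a x))
      ((fderiv ℝ a (op g 0)).comp (J 0)) 0 := hinv ▸ hd1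
  have key := hd1'.unique hd2
  rw [hop.neutral] at key
  let mat : ((Fin n → ℝ) →L[ℝ] Fin n → ℝ) → Matrix (Fin n) (Fin n) ℝ := fun f =>
    Matrix.of fun j i => f (Pi.single i 1) j
  have hcomp : ∀ f f' : (Fin n → ℝ) →L[ℝ] Fin n → ℝ, mat (f.comp f') = mat f * mat f' := by
    intro f f'
    ext j i
    simp only [mat, Matrix.of_apply, ContinuousLinearMap.comp_apply, Matrix.mul_apply]
    conv_lhs => rw [show f' (Pi.single i 1) = ∑ l, f' (Pi.single i 1) l • (Pi.single l 1 : Fin n → ℝ)
      from pi_eq_sum_univ' _]
    rw [map_sum, Finset.sum_apply]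
    exact Finset.sum_congr rfl fun l _ => by simp [mul_comm]
  set S : (Fin n → ℝ) →L[ℝ] Fin n → ℝ := (fderiv ℝ J 0).flip (a 0)
  have hS : ∀ j i : Fin n, j ≤ i → mat S j i = 0 := by
    intro j i hji
    have hsym := ((contDiff_op hop g).contDiffAt (x := (0 : Fin n → ℝ))).isSymmSndFDerivAt (by simp)
    simp only [mat, Matrix.of_apply, S, ContinuousLinearMap.flip_apply]
    rw [hsym.eq (Pi.single i 1) (a 0)]
    have hc : (fun x => J x (Pi.single i 1) j) = fun _ => if j = i then (1 : ℝ) else 0 :=
      funext fun x => fderiv_op_single hop g x hji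
    have h1 := hasFDerivAt_pi'.1
      ((hJ 0).hasFDerivAt.clm_apply (hasFDerivAt_const (Pi.single i 1 : Fin n → ℝ) _)) j
    rw [hc] at h1
    simpa [J] using ((congrArg (fun f => f (a 0)) (h1.unique (hasFDerivAt_const _ _))))
  have hdiv : ∀ x, divergence a x = (mat (fderiv ℝ a x)).trace := fun x => by
    simp only [divergence, Matrix.trace, Matrix.diag_apply, mat, Matrix.of_apply]
    refine Finset.sum_congr rfl fun j _ => ?_
    rw [(hasFDerivAt_pi'.1 (ha.differentiable one_ne_zero x).hasFDerivAt j).fderiv]
    rfl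
  have hM := congrArg mat key
  rw [hcomp] at hM
  have hsum : mat ((J 0).comp (fderiv ℝ a 0) + S)
      = mat (J 0) * mat (fderiv ℝ a 0) + mat S := by
    rw [← hcomp]; rfl
  rw [hsum] at hM
  have hlow : BlockTriangular (mat (J 0)) OrderDual.toDual := fun j i h => by
    have hji : j < i := h
    simp [mat, J, fderiv_op_single hop g 0 hji.le, hji.ne]
  have hdet : (mat (J 0)).det = 1 := by
    rw [det_of_isLowerTriangular _ hlow]
    exact Finset.prod_eq_one fun i _ => by simp [mat, J, fderiv_op_single hop g 0 le_rfl]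
  let _ : Invertible (mat (J 0)) := invertibleOfIsUnitDet _ (by rw [hdet]; exact isUnit_one)
  have hlow' := blockTriangular_inv_of_blockTriangular hlow
  have hP : mat (fderiv ℝ a g) = (mat (J 0) * mat (fderiv ℝ a 0) + mat S) * (mat (J 0))⁻¹ := by
    rw [← hM, Matrix.mul_inv_cancel_right_of_invertible]
  have hzero : (mat S * (mat (J 0))⁻¹).trace = 0 := Finset.sum_eq_zero fun j _ => by
    rw [Matrix.diag_apply, Matrix.mul_apply]
    refine Finset.sum_eq_zero fun l _ => ?_
    rcases lt_or_ge l j with h | h
    · rw [hlow' h, mul_zero]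
    · rw [hS j l h, zero_mul]
  rw [hdiv, hdiv, hP, Matrix.add_mul, Matrix.trace_add, hzero, add_zero, Matrix.trace_mul_cycle,
    Matrix.inv_mul_of_invertible, Matrix.one_mul]

theorem monotoneDiv_leftFrame : MonotoneDiv (leftFrame op B) := by
  intro k x y _ _
  have he : ∀ z, gDiv (leftFrame op B) (leftFrame op B k) z
      = divergence (leftFrame op B k) 0 := fun z => by
    have hc : (∏ k, B k k)⁻¹ ≠ 0 := inv_ne_zero (Finset.prod_pos fun k _ => hB k).ne'
    simp only [gDiv, volDens_leftFrame hop hB0]
    rw [div_eq_iff hc, ← divergence_leftFrame hop hB hB0 k z, mul_comm]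
    exact divergence_smul ((isTriFrame_leftFrame hop hB hB0).smooth k) _ z
  rw [he, he]

end

end Vale.Agent.P219.Frame
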