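import Vale.Agent.P219.Frame.Defs

/-!
# P219: integrals along coordinate lines

`lineInt L k g x` is the integral of `g` over `[-L, L]` in the coordinate `k`, the other coordinates
being those of `x`. It is continuously differentiable with `g`, and integrates out one coordinate of
the cube.
-/

open MeasureTheory Set Function Filter Topology intervalIntegral

namespace Vale.Agent.P219.Frame

noncomputable section

variable {n : ℕ} {L : ℝ} {g : (Fin n → ℝ) → ℝ}

/-- The parametric integral over a fixed interval is continuously differentiable. -/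
theorem contDiff_param {E : Type*} [NormedAddCommGroup E] [NormedSpace ℝ E] [ProperSpace E]
    {h : E × ℝ → ℝ} (hh : ContDiff ℝ 1 h) (a b : ℝ) :
    ContDiff ℝ 1 fun x => ∫ s in a..b, h (x, s) := by
  have hc : Continuous h := hh.continuous
  set D : E → ℝ → E →L[ℝ] ℝ := fun x s => (fderiv ℝ h (x, s)).comp (ContinuousLinearMap.inl ℝ E ℝ)
  have hD : Continuous fun p : E × ℝ => D p.1 p.2 :=
    (hh.continuous_fderiv one_ne_zero).clm_comp continuous_const
  have hd : ∀ x, HasFDerivAt (fun y => ∫ s in a..b, h (y, s)) (∫ s in a..b, D x s) x := by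
    intro x
    obtain ⟨C, hC⟩ := ((isCompact_closedBall x 1).prod (isCompact_uIcc (a := a) (b := b))).exists_bound_of_continuousOn
      hD.continuousOn
    refine hasFDerivAt_integral_of_dominated_of_fderiv_le (bound := fun _ => C)
      (F' := D) (Metric.closedBall_mem_nhds x one_pos)
      (.of_forall fun y => (hc.comp (continuous_const.prodMk continuous_id)).aestronglyMeasurable)
      ((hc.comp (continuous_const.prodMk continuous_id)).intervalIntegrable _ _)
      (hD.comp (continuous_const.prodMk continuous_id)).aestronglyMeasurable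
      (.of_forall fun s hs y hy => hC (y, s) ⟨hy, uIoc_subset_uIcc hs⟩) intervalIntegrable_const
      (.of_forall fun s _ y _ => ?_)
    have hi : HasFDerivAt (fun y : E => (y, s)) (ContinuousLinearMap.inl ℝ E ℝ) y := hasFDerivAt_prodMk_left y s
    exact ((hh.differentiable one_ne_zero).differentiableAt.hasFDerivAt).comp y hi
  refine contDiff_one_iff_fderiv.2 ⟨fun x => (hd x).differentiableAt, ?_⟩
  rw [show fderiv ℝ (fun y => ∫ s in a..b, h (y, s)) = fun x => ∫ s in a..b, D x s from
    funext fun x => (hd x).fderiv]
  exact continuous_parametric_intervalIntegral_of_continuous' hD _ _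

/-- The closed cube of half side `L`. -/
def box (n : ℕ) (L : ℝ) : Set (Fin n → ℝ) := Set.pi univ fun _ => Icc (-L) L

/-- The open cube of half side `L`. -/
def obox (n : ℕ) (L : ℝ) : Set (Fin n → ℝ) := Set.pi univ fun _ => Ioo (-L) L

theorem isCompact_box (n : ℕ) (L : ℝ) : IsCompact (box n L) := isCompact_univ_pi fun _ => isCompact_Icc

theorem isOpen_obox (n : ℕ) (L : ℝ) : IsOpen (obox n L) := isOpen_set_pi finite_univ fun _ _ => isOpen_Ioo

theorem measurableSet_obox (n : ℕ) (L : ℝ) : MeasurableSet (obox n L) := (isOpen_obox n L).measurableSet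

theorem update_mem_obox {x : Fin n → ℝ} (hx : x ∈ obox n L) {k : Fin n} {s : ℝ} (hs : s ∈ Ioo (-L) L) :
    update x k s ∈ obox n L := fun i _ => by
  rcases eq_or_ne i k with rfl | h
  · rwa [update_self]
  · rw [update_of_ne h]; exact hx i trivial

/-- The integral over a line. -/
def lineInt (L : ℝ) (k : Fin n) (g : (Fin n → ℝ) → ℝ) (x : Fin n → ℝ) : ℝ :=
  ∫ s in (-L)..L, g (update x k s)

/-- The integral over a line up to the point. -/
def linePart (L : ℝ) (k : Fin n) (g : (Fin n → ℝ) → ℝ) (x : Fin n → ℝ) : ℝ :=
  ∫ s in (-L)..(x k), g (update x k s)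

theorem contDiff_update (k : Fin n) :
    ContDiff ℝ 1 fun p : (Fin n → ℝ) × ℝ => update p.1 k p.2 := by
  refine contDiff_pi.2 fun i => ?_
  rcases eq_or_ne i k with rfl | h
  · simpa using contDiff_snd
  · simp only [update_of_ne h]
    exact (contDiff_apply ℝ ℝ i).comp contDiff_fst

theorem contDiff_lineInt (hg : ContDiff ℝ 1 g) (k : Fin n) : ContDiff ℝ 1 (lineInt L k g) :=
  contDiff_param (hg.comp (contDiff_update k)) _ _

theorem lineInt_update (k : Fin n) (x : Fin n → ℝ) (s : ℝ) :
    lineInt L k g (update x k s) = lineInt L k g x := by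
  simp [lineInt, update_idem]

theorem linePart_update (k : Fin n) (x : Fin n → ℝ) (s : ℝ) :
    linePart L k g (update x k s) = ∫ t in (-L)..s, g (update x k t) := by
  simp [linePart, update_idem]

theorem contDiff_linePart (hg : ContDiff ℝ 1 g) (k : Fin n) : ContDiff ℝ 1 (linePart L k g) := by
  have h1 : ContDiff ℝ 1 fun p : (Fin n → ℝ) × ℝ =>
      g (update p.1 k ((p.1 k + L) * p.2 - L)) * (p.1 k + L) := by
    have hk : ContDiff ℝ 1 fun p : (Fin n → ℝ) × ℝ => p.1 k := (contDiff_apply ℝ ℝ k).comp contDiff_fst
    refine ContDiff.mul ?_ (hk.add contDiff_const)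
    exact (hg.comp (contDiff_update k)).comp
      (contDiff_fst.prodMk (((hk.add contDiff_const).mul contDiff_snd).sub contDiff_const))
  have h2 := contDiff_param h1 0 1
  convert h2 using 1
  funext x
  show linePart L k g x = ∫ s in (0 : ℝ)..1, g (update x k ((x k + L) * s - L)) * (x k + L)
  rw [intervalIntegral.integral_mul_const, mul_comm,
    intervalIntegral.mul_integral_comp_mul_sub (f := fun t => g (update x k t))]
  simp [linePart]

theorem lineInt_pos (hg : Continuous g) (hpos : ∀ x, 0 < g x) (hL : 0 < L) (k : Fin n)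
    (x : Fin n → ℝ) : 0 < lineInt L k g x :=
  intervalIntegral_pos_of_pos ((hg.comp (continuous_const.update k continuous_id)).intervalIntegrable _ _)
    (fun _ => hpos _) (by linarith)

theorem continuous_lineInt (hg : Continuous g) (k : Fin n) : Continuous (lineInt L k g) :=
  continuous_parametric_intervalIntegral_of_continuous' (f := fun x s => g (update x k s))
    (hg.comp (contDiff_update k).continuous) _ _

theorem obox_subset_box (n : ℕ) (L : ℝ) : obox n L ⊆ box n L :=
  Set.pi_mono fun _ _ => Ioo_subset_Icc_self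

theorem integrableOn_obox {f : (Fin n → ℝ) → ℝ} (hf : Continuous f) : IntegrableOn f (obox n L) :=
  (hf.continuousOn.integrableOn_compact (isCompact_box n L)).mono_set (obox_subset_box n L)

/-- Integrating out one coordinate of the cube. -/
theorem integral_lineInt (hL : 0 < L) (hg : Continuous g) (k : Fin n) :
    ∫ x in obox n L, lineInt L k g x = 2 * L * ∫ x in obox n L, g x := by
  obtain ⟨m, rfl⟩ : ∃ m, n = m + 1 := ⟨n - 1, by have := k.2; omega⟩
  set e := (MeasurableEquiv.piFinSuccAbove (fun _ : Fin (m + 1) => ℝ) k).symm with he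
  have hmp : MeasurePreserving e volume volume :=
    (volume_preserving_piFinSuccAbove (fun _ : Fin (m + 1) => ℝ) k).symm
  have hpre : e ⁻¹' obox (m + 1) L = Ioo (-L) L ×ˢ obox m L := by
    ext ⟨t, y⟩
    simp [e, obox, Fin.forall_iff_succAbove k]
  have key : ∀ f : (Fin (m + 1) → ℝ) → ℝ, Continuous f →
      ∫ x in obox (m + 1) L, f x = ∫ y in obox m L, ∫ t in Ioo (-L) L, f (e (t, y)) := by
    intro f hf
    have hi : IntegrableOn (fun z => f (e z)) (Ioo (-L) L ×ˢ obox m L) volume :=
      hpre ▸ (hmp.integrableOn_comp_preimage e.measurableEmbedding).2 (integrableOn_obox hf)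
    rw [← hmp.setIntegral_preimage_emb e.measurableEmbedding, hpre]
    rw [Measure.volume_eq_prod, ← Measure.prod_restrict, integral_prod_symm]
    rw [Measure.prod_restrict]
    exact hi
  have hupd : ∀ t s y, update (e (t, y)) k s = e (s, y) := fun t s y => by
    funext i
    refine Fin.succAboveCases k ?_ (fun j => ?_) i
    · simp [e]
    · simp [e, Fin.succAbove_ne]
  have hline : ∀ t y, lineInt L k g (e (t, y)) = ∫ s in Ioo (-L) L, g (e (s, y)) := fun t y => by
    simp only [lineInt, hupd]
    rw [intervalIntegral.integral_of_le (by linarith), integral_Ioc_eq_integral_Ioo]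
  rw [key _ (continuous_lineInt hg k), key _ hg, ← MeasureTheory.integral_const_mul]
  refine integral_congr_ae (.of_forall fun y => ?_)
  simp only [hline, setIntegral_const, smul_eq_mul, measureReal_def, Real.volume_Ioo]
  rw [ENNReal.toReal_ofReal (by linarith)]
  ring

end

end Vale.Agent.P219.Frame
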