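import Vale.Agent.P219.Frame.Ball
import Vale.Agent.P219.Frame.Lines

/-!
# P219: a triangular map of a cube into the ball

For a positive density `ρ` on the cube, `T` is the triangular map sending `ρ` to the uniform measure
of the unit ball. Its `k`th component depends on the first `k` coordinates and is increasing in the
`k`th one, so that the divergence of `∑ Tₖ aₖ` is `∑ ∂ₖTₖ + ∑ Tₖ div aₖ`. The first sum is bounded
below by the arithmetic geometric mean inequality, and each `Tₖ div aₖ` has nonnegative mean for `ρ`.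
-/

open MeasureTheory Set Function Filter Topology intervalIntegral Finset

namespace Vale.Agent.P219.Frame

noncomputable section

variable {n : ℕ} {L : ℝ} {ρ : (Fin n → ℝ) → ℝ}

/-- The density after integrating out the coordinates from `k` on. -/
def marg (L : ℝ) (ρ : (Fin n → ℝ) → ℝ) (k : ℕ) : (Fin n → ℝ) → ℝ :=
  ((List.finRange n).drop k).foldr (lineInt L) ρ

theorem marg_top (L : ℝ) (ρ : (Fin n → ℝ) → ℝ) : marg L ρ n = ρ := by
  simp [marg, List.drop_eq_nil_of_le]

theorem marg_step (L : ℝ) (ρ : (Fin n → ℝ) → ℝ) (k : Fin n) :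
    marg L ρ k = lineInt L k (marg L ρ (k + 1)) := by
  rw [marg, List.drop_eq_getElem_cons (by simp)]
  simp [marg]

/-- `g` depends only on the coordinates below `k`. -/
def DepBelow (k : ℕ) (g : (Fin n → ℝ) → ℝ) : Prop :=
  ∀ x y, (∀ i : Fin n, i.1 < k → x i = y i) → g x = g y

theorem DepBelow.update {k : ℕ} {g : (Fin n → ℝ) → ℝ} (h : DepBelow k g) {i : Fin n} (hi : k ≤ i.1)
    (x : Fin n → ℝ) (s : ℝ) : g (Function.update x i s) = g x :=
  h _ _ fun j hj => update_of_ne (fun e => by subst e; omega) _ _

theorem DepBelow.mono {k l : ℕ} {g : (Fin n → ℝ) → ℝ} (h : DepBelow k g) (hkl : k ≤ l) :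
    DepBelow l g := fun x y hxy => h x y fun i hi => hxy i (hi.trans_le hkl)

theorem marg_dep (L : ℝ) (ρ : (Fin n → ℝ) → ℝ) {k : ℕ} (hk : k ≤ n) : DepBelow k (marg L ρ k) := by
  induction hk using Nat.decreasingInduction with
  | self =>
    intro x y h
    rw [show x = y from funext fun i => h i i.2]
  | of_succ j hj ih =>
    intro x y h
    rw [marg_step L ρ ⟨j, hj⟩]
    refine intervalIntegral.integral_congr fun s _ => ih _ _ fun i hi => ?_
    rcases eq_or_ne i ⟨j, hj⟩ with e | e
    · simp [e]
    · rw [update_of_ne e, update_of_ne e]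
      exact h i (lt_of_le_of_ne (Nat.le_of_lt_succ hi) fun e' => e (Fin.ext e'))

theorem marg_smooth (hρ : ContDiff ℝ 1 ρ) {k : ℕ} (hk : k ≤ n) : ContDiff ℝ 1 (marg L ρ k) := by
  induction hk using Nat.decreasingInduction with
  | self => rwa [marg_top]
  | of_succ j hj ih => rw [marg_step L ρ ⟨j, hj⟩]; exact contDiff_lineInt ih _

theorem marg_pos (hρ : ContDiff ℝ 1 ρ) (hpos : ∀ x, 0 < ρ x) (hL : 0 < L) {k : ℕ} (hk : k ≤ n) :
    ∀ x, 0 < marg L ρ k x := by
  induction hk using Nat.decreasingInduction with
  | self => rwa [marg_top]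
  | of_succ j hj ih =>
    rw [marg_step L ρ ⟨j, hj⟩]
    exact lineInt_pos (marg_smooth hρ hj).continuous ih hL _

theorem marg_integral (hρ : ContDiff ℝ 1 ρ) (hL : 0 < L) {φ : (Fin n → ℝ) → ℝ} (hφ : Continuous φ)
    {j₀ : ℕ} (hdep : DepBelow j₀ φ) {j : ℕ} (hj : j ≤ n) : j₀ ≤ j →
    ∫ x in obox n L, marg L ρ j x * φ x = (2 * L) ^ (n - j) * ∫ x in obox n L, ρ x * φ x := by
  induction hj using Nat.decreasingInduction with
  | self => intro _; simp [marg_top]
  | of_succ j hj ih =>
    intro hj₀
    have hpt : ∀ x, lineInt L ⟨j, hj⟩ (fun y => marg L ρ (j + 1) y * φ y) x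
        = marg L ρ j x * φ x := fun x => by
      rw [marg_step L ρ ⟨j, hj⟩]
      unfold lineInt
      simp only [hdep.update (i := ⟨j, hj⟩) hj₀]
      exact intervalIntegral.integral_mul_const _ _
    have h := integral_lineInt hL (g := fun y => marg L ρ (j + 1) y * φ y)
      ((marg_smooth (L := L) hρ hj).continuous.mul hφ) ⟨j, hj⟩
    simp only [hpt] at h
    rw [h, ih (by omega), ← mul_assoc, show n - j = n - (j + 1) + 1 by omega, pow_succ]
    ring

/-- The distribution function of the coordinate `k` given the earlier ones. -/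
def cdfAt (L : ℝ) (ρ : (Fin n → ℝ) → ℝ) (k : Fin n) (x : Fin n → ℝ) : ℝ :=
  linePart L k (marg L ρ (k + 1)) x / marg L ρ k x

/-- The ratio of the component to the remaining radius. -/
def ucoord (L : ℝ) (ρ : (Fin n → ℝ) → ℝ) (i : ℕ) (x : Fin n → ℝ) : ℝ :=
  if h : i < n then quantile (n - 1 - i) (cdfAt L ρ ⟨i, h⟩ x) else 0

/-- The remaining radius. -/
def radius (L : ℝ) (ρ : (Fin n → ℝ) → ℝ) (k : ℕ) (x : Fin n → ℝ) : ℝ :=
  ∏ i ∈ range k, √(1 - ucoord L ρ i x ^ 2)

/-- The triangular map. -/
def triMap (L : ℝ) (ρ : (Fin n → ℝ) → ℝ) (x : Fin n → ℝ) (k : Fin n) : ℝ :=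
  radius L ρ k x * ucoord L ρ k x

theorem ucoord_fin (k : Fin n) (x : Fin n → ℝ) :
    ucoord L ρ k x = quantile (n - 1 - k) (cdfAt L ρ k x) := by
  rw [ucoord, dif_pos k.2]

theorem ucoord_sq_le (i : ℕ) (x : Fin n → ℝ) : ucoord L ρ i x ^ 2 ≤ 1 := by
  unfold ucoord
  split_ifs with h
  · obtain ⟨h1, h2⟩ := quantile_mem (n - 1 - i) (cdfAt L ρ ⟨i, h⟩ x)
    nlinarith
  · norm_num

theorem sum_sq_radius (j : ℕ) (x : Fin n → ℝ) :
    ∑ i ∈ range j, (radius L ρ i x * ucoord L ρ i x) ^ 2 = 1 - radius L ρ j x ^ 2 := by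
  induction j with
  | zero => simp [radius]
  | succ j ih =>
    rw [Finset.sum_range_succ, ih, show radius L ρ (j + 1) x
      = radius L ρ j x * √(1 - ucoord L ρ j x ^ 2) from Finset.prod_range_succ _ _]
    rw [mul_pow, mul_pow, Real.sq_sqrt (by linarith [ucoord_sq_le (L := L) (ρ := ρ) j x])]
    ring

theorem triMap_sq_le (x : Fin n → ℝ) : ∑ k, triMap L ρ x k ^ 2 ≤ 1 := by
  simp only [triMap]
  rw [Fin.sum_univ_eq_sum_range (fun i => (radius L ρ i x * ucoord L ρ i x) ^ 2), sum_sq_radius]
  linarith [sq_nonneg (radius L ρ n x)]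

theorem linePart_dep {k : Fin n} {g : (Fin n → ℝ) → ℝ} (h : DepBelow (k + 1) g) :
    DepBelow (k + 1) (linePart L k g) := fun x y hxy => by
  unfold linePart
  rw [hxy k (Nat.lt_succ_self _)]
  refine intervalIntegral.integral_congr fun s _ => h _ _ fun i hi => ?_
  rcases eq_or_ne i k with e | e
  · simp [e]
  · rw [update_of_ne e, update_of_ne e]; exact hxy i hi

theorem ucoord_dep (i : ℕ) : DepBelow (i + 1) (ucoord L ρ i : (Fin n → ℝ) → ℝ) := fun x y hxy => by
  unfold ucoord
  split_ifs with h
  · have h1 := linePart_dep (L := L) (k := ⟨i, h⟩) (marg_dep L ρ (k := i + 1) h) x y hxy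
    have h2 := (marg_dep L ρ (k := i) h.le).mono (Nat.le_succ i) x y hxy
    simp only [cdfAt, h1, h2]
  · rfl

theorem radius_dep (k : ℕ) : DepBelow k (radius L ρ k : (Fin n → ℝ) → ℝ) := fun x y hxy =>
  Finset.prod_congr rfl fun i hi => by rw [(ucoord_dep i).mono (mem_range.1 hi) x y hxy]

theorem triMap_dep (k : Fin n) : DepBelow (k + 1) fun x => triMap L ρ x k := fun x y hxy => by
  simp only [triMap]
  rw [(ucoord_dep k.1) x y hxy, (radius_dep k.1).mono (Nat.le_succ _) x y hxy]

variable (hρ : ContDiff ℝ 1 ρ) (hpos : ∀ x, 0 < ρ x) (hL : 0 < L)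
include hρ hpos hL

theorem continuous_cdfAt (k : Fin n) : Continuous (cdfAt L ρ k) :=
  (contDiff_linePart (marg_smooth hρ k.2) k).continuous.div (marg_smooth hρ k.2.le).continuous
    fun x => (marg_pos hρ hpos hL k.2.le x).ne'

theorem continuous_ucoord (i : ℕ) : Continuous (ucoord L ρ i : (Fin n → ℝ) → ℝ) := by
  unfold ucoord
  split_ifs with h
  · exact (continuous_quantile _).comp (continuous_cdfAt hρ hpos hL ⟨i, h⟩)
  · exact continuous_const

theorem continuous_triMap : Continuous (triMap L ρ) :=
  continuous_pi fun k => (continuous_finsetProd _ fun i _ =>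
    (continuous_const.sub ((continuous_ucoord hρ hpos hL i).pow 2)).sqrt).mul
    (continuous_ucoord hρ hpos hL k)

theorem cdfAt_mem {x : Fin n → ℝ} (hx : x ∈ obox n L) (k : Fin n) : cdfAt L ρ k x ∈ Ioo (0 : ℝ) 1 := by
  obtain ⟨h1, h2⟩ := hx k trivial
  have hc : Continuous fun s => marg L ρ (k + 1) (Function.update x k s) :=
    (marg_smooth hρ k.2).continuous.comp (continuous_const.update k continuous_id)
  have hp : ∀ s, 0 < marg L ρ (k + 1) (Function.update x k s) := fun s => marg_pos hρ hpos hL k.2 _
  have hM : marg L ρ k x = (∫ s in (-L)..(x k), marg L ρ (k + 1) (Function.update x k s))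
      + ∫ s in (x k)..L, marg L ρ (k + 1) (Function.update x k s) := by
    rw [marg_step L ρ k, intervalIntegral.integral_add_adjacent_intervals
      (hc.intervalIntegrable _ _) (hc.intervalIntegrable _ _)]
    rfl
  have ha := intervalIntegral_pos_of_pos (hc.intervalIntegrable (-L) (x k)) hp h1
  have hb := intervalIntegral_pos_of_pos (hc.intervalIntegrable (x k) L) hp h2
  have hm := marg_pos hρ hpos hL k.2.le x
  refine ⟨div_pos ha hm, (div_lt_one hm).2 ?_⟩
  simp only [linePart]
  linarith

theorem ucoord_mem {x : Fin n → ℝ} (hx : x ∈ obox n L) (i : ℕ) :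
    ucoord L ρ i x ∈ Ioo (-1 : ℝ) 1 := by
  unfold ucoord
  split_ifs with h
  · exact quantile_mem_Ioo _ (cdfAt_mem hρ hpos hL hx _)
  · norm_num

theorem radius_pos {x : Fin n → ℝ} (hx : x ∈ obox n L) (k : ℕ) : 0 < radius L ρ k x :=
  Finset.prod_pos fun i _ => Real.sqrt_pos.2 (by
    obtain ⟨h1, h2⟩ := ucoord_mem hρ hpos hL hx i; nlinarith)

theorem contDiffAt_ucoord {x : Fin n → ℝ} (hx : x ∈ obox n L) (i : ℕ) :
    ContDiffAt ℝ 1 (ucoord L ρ i : (Fin n → ℝ) → ℝ) x := by
  unfold ucoord
  split_ifs with h
  · exact (contDiffAt_quantile _ (cdfAt_mem hρ hpos hL hx _)).comp x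
      ((contDiff_linePart (marg_smooth hρ h) _).contDiffAt.div (marg_smooth hρ h.le).contDiffAt
        (marg_pos hρ hpos hL h.le x).ne')
  · exact contDiffAt_const

theorem contDiffAt_triMap {x : Fin n → ℝ} (hx : x ∈ obox n L) :
    ContDiffAt ℝ 1 (triMap L ρ) x := by
  refine contDiffAt_pi.2 fun k => ?_
  have hr : ContDiffAt ℝ 1 (radius L ρ k : (Fin n → ℝ) → ℝ) x := by
    unfold radius
    refine contDiffAt_prod fun i _ => ?_
    refine (contDiffAt_const.sub ((contDiffAt_ucoord hρ hpos hL hx i).pow 2)).sqrt ?_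
    obtain ⟨h1, h2⟩ := ucoord_mem hρ hpos hL hx i
    nlinarith
  exact hr.mul (contDiffAt_ucoord hρ hpos hL hx k)

omit hpos hL in
theorem hasDerivAt_ucoord_line (x : Fin n → ℝ) (k : Fin n) {s : ℝ}
    (hs : cdfAt L ρ k (Function.update x k s) ∈ Ioo (0 : ℝ) 1) :
    HasDerivAt (fun t => ucoord L ρ k (Function.update x k t))
      (total (n - 1 - k) / wgt (n - 1 - k) (ucoord L ρ k (Function.update x k s))
        * (marg L ρ (k + 1) (Function.update x k s) / marg L ρ k x)) s := by
  have hF : HasDerivAt (fun t => cdfAt L ρ k (Function.update x k t))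
      (marg L ρ (k + 1) (Function.update x k s) / marg L ρ k x) s := by
    have hc : Continuous fun t => marg L ρ (k + 1) (Function.update x k t) :=
      (marg_smooth hρ k.2).continuous.comp (continuous_const.update k continuous_id)
    simp only [cdfAt, linePart_update, (marg_dep L ρ k.2.le).update (le_refl k.1)]
    exact ((hc.integral_hasStrictDerivAt (-L) s).hasDerivAt).div_const _
  simp only [ucoord_fin]
  exact (hasDerivAt_quantile _ hs).comp s hF

/-- The derivative of a component in its own coordinate. -/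
def partialSelf (L : ℝ) (ρ : (Fin n → ℝ) → ℝ) (k : Fin n) (x : Fin n → ℝ) : ℝ :=
  radius L ρ k x * (total (n - 1 - k) / wgt (n - 1 - k) (ucoord L ρ k x)
    * (marg L ρ (k + 1) x / marg L ρ k x))

theorem hasDerivAt_triMap_line {x : Fin n → ℝ} (hx : x ∈ obox n L) (k : Fin n) :
    HasDerivAt (fun t => triMap L ρ (Function.update x k t) k) (partialSelf L ρ k x) (x k) := by
  have h := hasDerivAt_ucoord_line hρ x k (s := x k)
    (by rw [update_eq_self]; exact cdfAt_mem hρ hpos hL hx k)
  rw [update_eq_self] at h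
  simp only [triMap, (radius_dep k.1).update (le_refl k.1)]
  exact h.const_mul _

theorem prod_partialSelf {x : Fin n → ℝ} (hx : x ∈ obox n L) :
    ∏ k, partialSelf L ρ k x = unitBallVol n * ρ x / marg L ρ 0 x := by
  have hrad : ∀ j, ∏ k ∈ range j, radius L ρ k x
      = ∏ i ∈ range j, √(1 - ucoord L ρ i x ^ 2) ^ (j - 1 - i) := by
    intro j
    induction j with
    | zero => simp
    | succ j ih =>
      rw [Finset.prod_range_succ, ih, radius, ← Finset.prod_mul_distrib, Finset.prod_range_succ]
      simp only [show j + 1 - 1 - j = 0 by omega, pow_zero, mul_one]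
      refine Finset.prod_congr rfl fun i hi => ?_
      rw [← pow_succ]
      congr 1
      have := mem_range.1 hi
      omega
  have htel : ∀ j, j ≤ n → ∏ k ∈ range j, (marg L ρ (k + 1) x / marg L ρ k x)
      = marg L ρ j x / marg L ρ 0 x := by
    intro j hj
    induction j with
    | zero => simp [(marg_pos hρ hpos hL (Nat.zero_le n) x).ne']
    | succ j ih =>
      rw [Finset.prod_range_succ, ih (by omega)]
      have := (marg_pos hρ hpos hL (show j ≤ n by omega) x).ne'
      field_simp
  simp only [partialSelf]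
  rw [Fin.prod_univ_eq_prod_range (fun k => radius L ρ k x * (total (n - 1 - k)
    / wgt (n - 1 - k) (ucoord L ρ k x) * (marg L ρ (k + 1) x / marg L ρ k x)))]
  rw [Finset.prod_mul_distrib, Finset.prod_mul_distrib, Finset.prod_div_distrib, hrad,
    htel n le_rfl, marg_top, Finset.prod_range_reflect (fun k => total k) n, ← unitBallVol_eq_prod]
  have hw : ∏ k ∈ range n, wgt (n - 1 - k) (ucoord L ρ k x)
      = ∏ i ∈ range n, √(1 - ucoord L ρ i x ^ 2) ^ (n - 1 - i) :=
    Finset.prod_congr rfl fun i _ => wgt_eq _ (Ioo_subset_Icc_self (ucoord_mem hρ hpos hL hx i))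
  have hne : (∏ k ∈ range n, wgt (n - 1 - k) (ucoord L ρ k x)) ≠ 0 :=
    (Finset.prod_pos fun i _ => wgt_pos _ (ucoord_mem hρ hpos hL hx i)).ne'
  rw [← hw]
  field_simp

theorem moment_zero {x : Fin n → ℝ} (hx : x ∈ obox n L) (k : Fin n) :
    ∫ s in (-L)..L, marg L ρ (k + 1) (Function.update x k s)
      * ucoord L ρ k (Function.update x k s) = 0 := by
  set m := n - 1 - k.1
  set M := marg L ρ k x
  have hM : 0 < M := marg_pos hρ hpos hL k.2.le x
  have hu : Continuous fun s => ucoord L ρ k (Function.update x k s) :=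
    (continuous_ucoord hρ hpos hL k).comp (continuous_const.update k continuous_id)
  have hg : Continuous fun s => marg L ρ (k + 1) (Function.update x k s) :=
    (marg_smooth hρ k.2).continuous.comp (continuous_const.update k continuous_id)
  have h := integral_eq_sub_of_hasDerivAt_of_le (f := fun s =>
      -(√(1 - ucoord L ρ k (Function.update x k s) ^ 2) ^ (m + 2)) / (m + 2))
    (f' := fun s => total m / M
      * (marg L ρ (k + 1) (Function.update x k s) * ucoord L ρ k (Function.update x k s)))
    (show -L ≤ L by linarith)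
    (((continuous_const.sub (hu.pow 2)).sqrt.pow _).neg.div_const _).continuousOn ?_
    ((continuous_const.mul (hg.mul hu)).intervalIntegrable _ _)
  · have hlo : ucoord L ρ k (Function.update x k (-L)) = -1 := by
      simp [ucoord_fin, cdfAt, linePart, quantile_zero]
    have hhi : ucoord L ρ k (Function.update x k L) = 1 := by
      rw [ucoord_fin, cdfAt, linePart_update, (marg_dep L ρ k.2.le).update (le_refl k.1),
        marg_step L ρ k, lineInt, div_self, quantile_one]
      have := hM.ne'
      simpa only [M, marg_step L ρ k, lineInt] using this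
    rw [intervalIntegral.integral_const_mul] at h
    simp only [hlo, hhi] at h
    norm_num at h
    rcases h with h | h
    · exact absurd h (by simp [(total_pos m).ne', hM.ne'])
    · exact h
  · intro s hs
    have hxs := cdfAt_mem hρ hpos hL (update_mem_obox hx (k := k) hs) k
    have hd := hasDerivAt_ucoord_line hρ x k hxs
    have hmem := ucoord_mem hρ hpos hL (update_mem_obox hx (k := k) hs) k
    refine ((hasDerivAt_moment m hmem).comp s hd).congr_deriv ?_
    have := (wgt_pos m hmem).ne'
    simp only [M, m] at *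
    field_simp

theorem line_integral_nonneg {x : Fin n → ℝ} (hx : x ∈ obox n L) (k : Fin n)
    {c : (Fin n → ℝ) → ℝ} (hc : Continuous c)
    (hmono : ∀ s t : ℝ, s ≤ t → c (Function.update x k s) ≤ c (Function.update x k t)) :
    0 ≤ lineInt L k (fun y => marg L ρ (k + 1) y * (c y * triMap L ρ y k)) x := by
  set g := fun s => marg L ρ (k + 1) (Function.update x k s)
  set U := fun s => ucoord L ρ k (Function.update x k s)
  set C := fun s => c (Function.update x k s)
  have hg : Continuous g := (marg_smooth hρ k.2).continuous.comp (continuous_const.update k continuous_id)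
  have hU : Continuous U := (continuous_ucoord hρ hpos hL k).comp (continuous_const.update k continuous_id)
  have hC : Continuous C := hc.comp (continuous_const.update k continuous_id)
  have hgp : ∀ s, 0 < g s := fun s => marg_pos hρ hpos hL k.2 _
  have hUmono : Monotone U := fun s t hst => by
    simp only [U, ucoord_fin, cdfAt, linePart_update, (marg_dep L ρ k.2.le).update (le_refl k.1)]
    refine monotone_quantile _ (div_le_div_of_nonneg_right ?_ (marg_pos hρ hpos hL k.2.le x).le)
    rw [← intervalIntegral.integral_add_adjacent_intervals (hg.intervalIntegrable (-L) s)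
      (hg.intervalIntegrable s t)]
    exact le_add_of_nonneg_right (intervalIntegral.integral_nonneg hst fun r _ => (hgp r).le)
  have hzero : ∫ s in (-L)..L, g s * U s = 0 := moment_zero hρ hpos hL hx k
  have hkey : 0 ≤ ∫ s in (-L)..L, g s * (C s * U s) := by
    by_cases hex : ∃ s₀, U s₀ = 0
    · obtain ⟨s₀, hs₀⟩ := hex
      have h1 : 0 ≤ ∫ s in (-L)..L, g s * ((C s - C s₀) * U s) := by
        refine intervalIntegral.integral_nonneg (by linarith) fun s _ => mul_nonneg (hgp s).le ?_
        rcases le_total s s₀ with h | h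
        · exact mul_nonneg_of_nonpos_of_nonpos (sub_nonpos.2 (hmono _ _ h)) (hs₀ ▸ hUmono h)
        · exact mul_nonneg (sub_nonneg.2 (hmono _ _ h)) (hs₀ ▸ hUmono h)
      have h2 : (∫ s in (-L)..L, g s * (C s * U s))
          = (∫ s in (-L)..L, g s * ((C s - C s₀) * U s)) + C s₀ * ∫ s in (-L)..L, g s * U s := by
        have hi1 : IntervalIntegrable (fun s => g s * ((C s - C s₀) * U s)) volume (-L) L :=
          (hg.mul ((hC.sub continuous_const).mul hU)).intervalIntegrable _ _
        have hi2 : IntervalIntegrable (fun s => C s₀ * (g s * U s)) volume (-L) L :=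
          (continuous_const.mul (hg.mul hU)).intervalIntegrable _ _
        rw [← intervalIntegral.integral_const_mul, ← intervalIntegral.integral_add hi1 hi2]
        exact intervalIntegral.integral_congr fun s _ => by ring
      rw [h2, hzero, mul_zero, add_zero]
      exact h1
    · exfalso
      push Not at hex
      have hlo : U (-L) = -1 := by simp [U, ucoord_fin, cdfAt, linePart, quantile_zero]
      have hhi : U L = 1 := by
        simp only [U]
        rw [ucoord_fin, cdfAt, linePart_update, (marg_dep L ρ k.2.le).update (le_refl k.1),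
          marg_step L ρ k, lineInt, div_self, quantile_one]
        have := (marg_pos hρ hpos hL k.2.le x).ne'
        simpa only [marg_step L ρ k, lineInt] using this
      obtain ⟨s, -, hs⟩ := intermediate_value_Icc (show -L ≤ L by linarith) hU.continuousOn
        (show (0 : ℝ) ∈ Icc (U (-L)) (U L) by rw [hlo, hhi]; norm_num)
      exact hex s hs
  have hr : ∀ s, triMap L ρ (Function.update x k s) k = radius L ρ k x * U s := fun s => by
    simp [triMap, U, (radius_dep k.1).update (le_refl k.1)]
  simp only [lineInt, hr]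
  rw [intervalIntegral.integral_congr (g := fun s => radius L ρ k x * (g s * (C s * U s)))
    (fun s _ => by simp only [g, C]; ring), intervalIntegral.integral_const_mul]
  exact mul_nonneg (radius_pos hρ hpos hL hx k).le hkey

end

end Vale.Agent.P219.Frame
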