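import Vale.Agent.P219.Frame.Defs

/-!
# P219: a small translation of a field of length at most one has length at most about one

Since the frame is continuous, the coefficients of `x ↦ W (x + t)` in the frame are uniformly close
to those of `W` for small `t`.
-/

open MeasureTheory Set Function Filter Topology Finset Matrix
open scoped ENNReal

namespace Vale.Agent.P219.Frame

noncomputable section

variable {n : ℕ} {a : Fin n → (Fin n → ℝ) → Fin n → ℝ}

/-- The matrix of the frame at a point. -/
def frameMat (a : Fin n → (Fin n → ℝ) → Fin n → ℝ) (x : Fin n → ℝ) : Matrix (Fin n) (Fin n) ℝ :=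
  Matrix.of fun k j => a k x j

theorem det_frameMat (ha : IsTriFrame a) (x : Fin n → ℝ) : 0 < (frameMat a x).det := by
  rw [det_of_isUpperTriangular (M := frameMat a x) fun k j h => ha.upper k j x h]
  exact Finset.prod_pos fun k _ => ha.diag k x

theorem inv_smul_adjugate_mul (ha : IsTriFrame a) (x : Fin n → ℝ) :
    ((frameMat a x).det⁻¹ • (frameMat a x).adjugate) * frameMat a x = 1 := by
  rw [Matrix.smul_mul, adjugate_mul, smul_smul, inv_mul_cancel₀ (det_frameMat ha x).ne', one_smul]

theorem contDiff_frameMat (ha : IsTriFrame a) (k j : Fin n) :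
    ContDiff ℝ 1 fun x => frameMat a x k j := contDiff_pi.1 (ha.smooth k) j

theorem contDiff_adjugate (ha : IsTriFrame a) (k j : Fin n) :
    ContDiff ℝ 1 fun x => (frameMat a x).adjugate k j := by
  simp only [adjugate_apply, det_apply']
  refine ContDiff.sum fun σ _ => contDiff_const.mul (contDiff_prod fun i _ => ?_)
  simp only [updateRow_apply]
  split_ifs
  · exact contDiff_const
  · exact contDiff_frameMat ha _ _

theorem contDiff_det_inv (ha : IsTriFrame a) : ContDiff ℝ 1 fun x => (frameMat a x).det⁻¹ := by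
  refine ContDiff.inv ?_ fun x => (det_frameMat ha x).ne'
  simp only [det_apply']
  exact ContDiff.sum fun σ _ => contDiff_const.mul (contDiff_prod fun i _ => contDiff_frameMat ha _ _)

/-- The transition from the frame at `x + t` to the frame at `x`. -/
def transition (a : Fin n → (Fin n → ℝ) → Fin n → ℝ) (x t : Fin n → ℝ) :
    Matrix (Fin n) (Fin n) ℝ :=
  frameMat a (x + t) * ((frameMat a x).det⁻¹ • (frameMat a x).adjugate)

theorem transition_zero (ha : IsTriFrame a) (x : Fin n → ℝ) : transition a x 0 = 1 := by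
  rw [transition, add_zero, Matrix.mul_smul, mul_adjugate, smul_smul,
    inv_mul_cancel₀ (det_frameMat ha x).ne', one_smul]

theorem contDiff_transition (ha : IsTriFrame a) (k j : Fin n) :
    ContDiff ℝ 1 fun p : (Fin n → ℝ) × (Fin n → ℝ) => transition a p.1 p.2 k j := by
  simp only [transition, mul_apply, Matrix.smul_apply, smul_eq_mul]
  exact ContDiff.sum fun i _ => ((contDiff_frameMat ha k i).comp (contDiff_fst.add contDiff_snd)).mul
    (((contDiff_det_inv ha).mul (contDiff_adjugate ha i j)).comp contDiff_fst)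

theorem divergence_add_right (W : (Fin n → ℝ) → Fin n → ℝ) (t x : Fin n → ℝ) :
    divergence (fun y => W (y + t)) x = divergence W (x + t) := by
  simp only [divergence]
  refine Finset.sum_congr rfl fun j _ => ?_
  rw [fderiv_comp_add_right (f := fun y => W y j) t]

theorem combine_eq_vecMul (Y : (Fin n → ℝ) → Fin n → ℝ) (x : Fin n → ℝ) :
    combine a Y x = Y x ᵥ* frameMat a x := by
  funext j
  simp [combine, vecMul, dotProduct, frameMat]

theorem divergence_smul {W : (Fin n → ℝ) → Fin n → ℝ} (hW : ContDiff ℝ 1 W) (c : ℝ) (x : Fin n → ℝ) :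
    divergence (fun y => c • W y) x = c * divergence W x := by
  simp only [divergence, Pi.smul_apply, smul_eq_mul, Finset.mul_sum]
  refine Finset.sum_congr rfl fun j _ => ?_
  rw [fderiv_const_mul ((contDiff_pi.1 hW j).differentiable one_ne_zero x)]
  rfl

theorem contDiff_combine (ha : IsTriFrame a) {Y : (Fin n → ℝ) → Fin n → ℝ} (hY : ContDiff ℝ 1 Y) :
    ContDiff ℝ 1 (combine a Y) :=
  contDiff_pi.2 fun j => ContDiff.sum fun k _ => (contDiff_pi.1 hY k).mul (contDiff_pi.1 (ha.smooth k) j)

theorem le_of_fluxSup {E : Set (Fin n → ℝ)} (hP : fluxSup a E ≠ ∞) {Y : (Fin n → ℝ) → Fin n → ℝ}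
    (h1 : ContDiff ℝ 1 Y) (h2 : HasCompactSupport Y) (h3 : ∀ x, ∑ k, Y x k ^ 2 ≤ 1) :
    ∫ x in E, divergence (combine a Y) x ≤ (fluxSup a E).toReal :=
  (ENNReal.ofReal_le_iff_le_toReal hP).1
    (le_iSup₂ (f := fun Y _ => ENNReal.ofReal (∫ x in E, divergence (combine a Y) x)) Y ⟨h1, h2, h3⟩)

/-- The flux of a slightly translated field is at most about the perimeter. -/
theorem exists_shift_bound (ha : IsTriFrame a) {E : Set (Fin n → ℝ)} (hP : fluxSup a E ≠ ∞) (R : ℝ)
    {η : ℝ} (hη : 0 < η) :
    ∃ ε > 0, ∀ Y : (Fin n → ℝ) → Fin n → ℝ, ContDiff ℝ 1 Y → (∀ x, ∑ k, Y x k ^ 2 ≤ 1) →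
      (∀ x, R < ‖x‖ → Y x = 0) → ∀ t, ‖t‖ ≤ ε →
        ∫ x in E, divergence (combine a Y) (x + t) ≤ (1 + η) * (fluxSup a E).toReal := by
  set θ := min 1 (η / (n ^ 3 + 2 * n ^ 2 + 1)) with hθ
  have hθ0 : 0 < θ := lt_min one_pos (by positivity)
  have hall : ∀ k j : Fin n, ∀ᶠ t in 𝓝 (0 : Fin n → ℝ), ∀ x ∈ Metric.closedBall (0 : Fin n → ℝ) (R + 1),
      |transition a x t k j - (1 : Matrix (Fin n) (Fin n) ℝ) k j| < θ := by
    intro k j
    refine (isCompact_closedBall _ _).eventually_forall_of_forall_eventually fun x _ => ?_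
    refine ((((contDiff_transition ha k j).continuous.comp continuous_swap).sub
      continuous_const).abs.continuousAt).eventually_lt_const ?_
    simp [transition_zero ha, hθ0]
  obtain ⟨ε, hε, hball⟩ := Metric.eventually_nhds_iff.1
    ((Filter.eventually_all.2 fun k => Filter.eventually_all.2 (hall k)))
  refine ⟨min 1 (ε / 2), lt_min one_pos (by linarith), fun Y hY hY1 hsupp t ht => ?_⟩
  set Z : (Fin n → ℝ) → Fin n → ℝ := fun x => Y (x + t) ᵥ* transition a x t
  have hWZ : ∀ x, combine a Z x = combine a Y (x + t) := fun x => by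
    simp only [combine_eq_vecMul, Z, vecMul_vecMul, transition, Matrix.mul_assoc,
      inv_smul_adjugate_mul ha, Matrix.mul_one]
  have hZs : ContDiff ℝ 1 Z := contDiff_pi.2 fun j => by
    simp only [Z, vecMul, dotProduct]
    exact ContDiff.sum fun k _ =>
      ((contDiff_pi.1 hY k).comp (contDiff_id.add contDiff_const)).mul
        ((contDiff_transition ha k j).comp (contDiff_id.prodMk contDiff_const))
  have hsupp' : ∀ x, R + 1 < ‖x‖ → Y (x + t) = 0 := fun x hx => hsupp _ (by
    have h := norm_sub_norm_le x (-t)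
    rw [sub_neg_eq_add, norm_neg] at h
    linarith [ht.trans (min_le_left _ _)])
  have hZc : HasCompactSupport Z :=
    HasCompactSupport.intro (isCompact_closedBall 0 (R + 1)) fun x hx => by
      rw [Metric.mem_closedBall, dist_zero_right, not_le] at hx
      simp [Z, hsupp' x hx]
  have hlen : ∀ x, ∑ j, Z x j ^ 2 ≤ (1 + η) ^ 2 := fun x => by
    by_cases hx : R + 1 < ‖x‖
    · simp [Z, hsupp' x hx]; positivity
    push Not at hx
    set y := Y (x + t)
    have hy : ∀ k, |y k| ≤ 1 := fun k => (sq_le_one_iff_abs_le_one _).1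
      ((Finset.single_le_sum (f := fun k => y k ^ 2) (fun _ _ => sq_nonneg _) (Finset.mem_univ k)).trans
        (hY1 _))
    have hb : ∀ k j, |transition a x t k j - (1 : Matrix (Fin n) (Fin n) ℝ) k j| ≤ θ := fun k j =>
      (hball (by rw [dist_zero_right]; linarith [ht.trans (min_le_right _ _)]) k j x
        (by rwa [Metric.mem_closedBall, dist_zero_right])).le
    have hd : ∀ j, |Z x j - y j| ≤ n * θ := fun j => by
      have h1 : Z x j - y j
          = ∑ k, y k * (transition a x t k j - (1 : Matrix (Fin n) (Fin n) ℝ) k j) := by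
        simp [Z, vecMul, dotProduct, mul_sub, Finset.sum_sub_distrib, one_apply, y]
      rw [h1]
      refine (Finset.abs_sum_le_sum_abs _ _).trans ?_
      refine (Finset.sum_le_sum (g := fun _ => θ) fun k _ => ?_).trans_eq (by simp)
      rw [abs_mul]
      exact (mul_le_mul (hy k) (hb k j) (abs_nonneg _) zero_le_one).trans_eq (one_mul θ)
    have hj : ∀ j, Z x j ^ 2 ≤ y j ^ 2 + (2 * (n * θ) + (n * θ) ^ 2) := fun j => by
      nlinarith [sq_abs (Z x j - y j), abs_mul_abs_self (y j), hd j, hy j,
        abs_nonneg (Z x j - y j), abs_nonneg (y j), le_abs_self (y j * (Z x j - y j)),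
        abs_mul (y j) (Z x j - y j), mul_le_mul (hy j) (hd j) (abs_nonneg _) zero_le_one]
    calc ∑ j, Z x j ^ 2 ≤ ∑ j, (y j ^ 2 + (2 * (n * θ) + (n * θ) ^ 2)) :=
          Finset.sum_le_sum fun j _ => hj j
      _ = (∑ j, y j ^ 2) + (2 * n ^ 2 * θ + n ^ 3 * θ ^ 2) := by
          rw [Finset.sum_add_distrib, Finset.sum_const, Finset.card_univ, Fintype.card_fin, nsmul_eq_mul]
          ring
      _ ≤ (1 + η) ^ 2 := by
          have h1 : θ ≤ 1 := min_le_left _ _
          have h2 : θ * (n ^ 3 + 2 * n ^ 2 + 1) ≤ η :=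
            (le_div_iff₀ (by positivity)).1 (min_le_right _ _)
          have h3 := hY1 (x + t)
          nlinarith [mul_le_mul_of_nonneg_left h1 (by positivity : (0:ℝ) ≤ (n:ℝ) ^ 3 * θ)]
  have hη1 : (0 : ℝ) < 1 + η := by linarith
  have h := le_of_fluxSup hP (Y := fun x => (1 + η)⁻¹ • Z x) (hZs.const_smul _)
    (hZc.mono' (fun x hx => subset_tsupport _ (by
      rw [mem_support] at hx ⊢; exact fun e => hx (by simp [e])))) fun x => by
      simp only [Pi.smul_apply, smul_eq_mul, mul_pow, ← Finset.mul_sum, inv_pow]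
      rw [inv_mul_le_iff₀ (by positivity), mul_one]
      exact hlen x
  have hc : combine a (fun x => (1 + η)⁻¹ • Z x) = fun x => (1 + η)⁻¹ • combine a Y (x + t) := by
    funext x
    rw [← hWZ x, combine_eq_vecMul, combine_eq_vecMul, smul_vecMul]
  simp only [hc, divergence_smul (W := fun x => combine a Y (x + t))
    ((contDiff_combine ha hY).comp (contDiff_id.add contDiff_const)),
    divergence_add_right (combine a Y) t, MeasureTheory.integral_const_mul] at h
  rwa [inv_mul_le_iff₀ hη1] at h

end

end Vale.Agent.P219.Frame
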