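import Vale.Agent.P219.Frame.Div
import Vale.Agent.P219.Frame.Shift

/-!
# P219: the sharp isoperimetric inequality for monotone triangular frames
-/

open MeasureTheory Set Function Filter Topology Finset
open scoped ENNReal Convolution

namespace Vale.Agent.P219.Frame

noncomputable section

variable {n : ℕ} {a : Fin n → (Fin n → ℝ) → Fin n → ℝ}

/-- The mollifier. -/
def bump (n k : ℕ) : ContDiffBump (0 : Fin n → ℝ) :=
  ⟨1 / ((k : ℝ) + 1), 2 / ((k : ℝ) + 1), by positivity, by gcongr; norm_num⟩

theorem bump_rOut_le (n k : ℕ) : (bump n k).rOut ≤ 2 := by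
  simp only [bump]
  rw [div_le_iff₀ (by positivity)]
  linarith [(Nat.cast_nonneg k : (0 : ℝ) ≤ k)]

theorem tendsto_rOut (n : ℕ) : Tendsto (fun k => (bump n k).rOut) atTop (𝓝 0) := by
  simpa [bump, div_eq_mul_inv] using
    (tendsto_one_div_add_atTop_nhds_zero_nat (𝕜 := ℝ)).const_mul 2

/-- The smoothed indicator of a set. -/
def smoothed (n k : ℕ) (E : Set (Fin n → ℝ)) : (Fin n → ℝ) → ℝ :=
  (bump n k).normed volume ⋆[ContinuousLinearMap.lsmul ℝ ℝ, volume] E.indicator fun _ => 1

variable {E : Set (Fin n → ℝ)} {R : ℝ}

theorem smoothed_def (k : ℕ) (x : Fin n → ℝ) : smoothed n k E x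
    = ∫ t, (bump n k).normed volume t * E.indicator (fun _ => 1) (x - t) := rfl

theorem indicator_one_mem (x : Fin n → ℝ) : E.indicator (fun _ => (1 : ℝ)) x ∈ Icc (0 : ℝ) 1 := by
  by_cases hx : x ∈ E <;> simp [hx]

theorem smoothed_mem (_hE : MeasurableSet E) (k : ℕ) (x : Fin n → ℝ) :
    smoothed n k E x ∈ Icc (0 : ℝ) 1 := by
  have hb := (bump n k).nonneg_normed (μ := (volume : Measure (Fin n → ℝ)))
  refine ⟨integral_nonneg fun t => mul_nonneg (hb t) (indicator_one_mem _).1, ?_⟩
  rw [smoothed_def]
  refine (integral_mono_of_nonneg (.of_forall fun t => mul_nonneg (hb t) (indicator_one_mem _).1)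
    (bump n k).integrable_normed (.of_forall fun t => ?_)).trans_eq
    ((bump n k).integral_normed (μ := (volume : Measure (Fin n → ℝ))))
  exact mul_le_of_le_one_right (hb t) (indicator_one_mem _).2

theorem smoothed_eq_zero (hR : ∀ x ∈ E, ‖x‖ ≤ R) (k : ℕ) {x : Fin n → ℝ} (hx : R + 2 < ‖x‖) :
    smoothed n k E x = 0 := by
  rw [smoothed_def]
  refine integral_eq_zero_of_ae (.of_forall fun t => ?_)
  show (bump n k).normed volume t * _ = 0
  by_cases ht : t ∈ Metric.ball (0 : Fin n → ℝ) (bump n k).rOut
  · rw [indicator_of_notMem (fun h => ?_), mul_zero]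
    rw [Metric.mem_ball, dist_zero_right] at ht
    linarith [hR _ h, bump_rOut_le n k, norm_sub_norm_le x t]
  · rw [← (bump n k).support_normed_eq (μ := (volume : Measure (Fin n → ℝ))), notMem_support] at ht
    rw [ht, zero_mul]

theorem integrable_indicator_one (hE : MeasurableSet E) (hfin : volume E ≠ ∞) :
    Integrable (E.indicator fun _ => (1 : ℝ)) :=
  (integrable_indicator_iff hE).2 (integrableOn_const hfin)

theorem smoothed_smooth (hE : MeasurableSet E) (hfin : volume E ≠ ∞) (k : ℕ) :
    ContDiff ℝ 1 (smoothed n k E) :=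
  (bump n k).hasCompactSupport_normed.contDiff_convolution_left _ (bump n k).contDiff_normed
    (integrable_indicator_one hE hfin).locallyIntegrable

theorem integral_smoothed (hE : MeasurableSet E) (hfin : volume E ≠ ∞) (k : ℕ) :
    ∫ x, smoothed n k E x = volume.real E := by
  rw [smoothed, integral_convolution (ContinuousLinearMap.lsmul ℝ ℝ) (bump n k).integrable_normed
    (integrable_indicator_one hE hfin), (bump n k).integral_normed]
  simp [MeasureTheory.integral_indicator hE]

/-- Fubini: integrating against the smoothed indicator averages integrals over translates. -/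
theorem integral_smoothed_mul_le (hE : MeasurableSet E) (k : ℕ) {g : (Fin n → ℝ) → ℝ}
    (hg : Integrable g) {c ε : ℝ} (hε : (bump n k).rOut ≤ ε)
    (h : ∀ t, ‖t‖ ≤ ε → ∫ x in E, g (x + t) ≤ c) :
    ∫ x, smoothed n k E x * g x ≤ c := by
  set ψ := (bump n k).normed (volume : Measure (Fin n → ℝ))
  set χ := E.indicator fun _ => (1 : ℝ)
  have hχ : Measurable χ := measurable_const.indicator hE
  have hfub : Integrable (uncurry fun x t => ψ t * χ (x - t) * g x)
      ((volume : Measure (Fin n → ℝ)).prod volume) := by
    refine Integrable.mono' (hg.norm.mul_prod (bump n k).integrable_normed)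
      ((((bump n k).continuous_normed.measurable.comp measurable_snd).mul
        (hχ.comp (measurable_fst.sub measurable_snd))).aestronglyMeasurable.mul
        hg.aestronglyMeasurable.comp_fst) (.of_forall fun ⟨x, t⟩ => ?_)
    simp only [uncurry_apply_pair, norm_mul]
    rw [Real.norm_eq_abs, abs_of_nonneg ((bump n k).nonneg_normed t), Real.norm_eq_abs (χ _),
      abs_of_nonneg (indicator_one_mem _).1, mul_comm ‖g x‖]
    exact mul_le_mul_of_nonneg_right
      (mul_le_of_le_one_right ((bump n k).nonneg_normed t) (indicator_one_mem _).2) (norm_nonneg _)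
  calc ∫ x, smoothed n k E x * g x
      = ∫ x, ∫ t, ψ t * χ (x - t) * g x := by simp only [smoothed_def, ψ, χ, integral_mul_const]
    _ = ∫ t, ∫ x, ψ t * χ (x - t) * g x := integral_integral_swap hfub
    _ ≤ ∫ t, ψ t * c := by
        refine integral_mono hfub.integral_prod_right ((bump n k).integrable_normed.mul_const c) fun t => ?_
        simp only [mul_assoc, MeasureTheory.integral_const_mul]
        by_cases ht : t ∈ Metric.ball (0 : Fin n → ℝ) (bump n k).rOut
        · refine mul_le_mul_of_nonneg_left ?_ ((bump n k).nonneg_normed t)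
          rw [Metric.mem_ball, dist_zero_right] at ht
          rw [← integral_add_right_eq_self _ t]
          simp only [add_sub_cancel_right]
          rw [show (fun x => χ x * g (x + t)) = E.indicator fun x => g (x + t) from
            funext fun x => by by_cases hx : x ∈ E <;> simp [χ, hx],
            MeasureTheory.integral_indicator hE]
          exact h t (ht.le.trans hε)
        · rw [← (bump n k).support_normed_eq (μ := (volume : Measure (Fin n → ℝ))), notMem_support] at ht
          simp [ψ, ht]
    _ = c := by rw [MeasureTheory.integral_mul_const, (bump n k).integral_normed, one_mul]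

/-- The inequality for one smoothing and one `δ`. -/
theorem estimate (hn : 0 < n) (ha : IsTriFrame a) (hmono : MonotoneDiv a) (hE : MeasurableSet E)
    (hfin : volume E ≠ ∞) (hR0 : 0 ≤ R) (hR : ∀ x ∈ E, ‖x‖ ≤ R) (k : ℕ) {η ε : ℝ}
    (hε : (bump n k).rOut ≤ ε)
    (hshift : ∀ Y : (Fin n → ℝ) → Fin n → ℝ, ContDiff ℝ 1 Y → (∀ x, ∑ k, Y x k ^ 2 ≤ 1) →
      (∀ x, R + 4 < ‖x‖ → Y x = 0) → ∀ t, ‖t‖ ≤ ε →
        ∫ x in E, divergence (combine (dens a) Y) (x + t) ≤ (1 + η) * (gPer a E).toReal)
    {δ : ℝ} (hδ : 0 < δ) :
    n * (unitBallVol n / ((∫ x in obox n (R + 5), smoothed n k E x * volDens a x)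
          + δ * ∫ x in obox n (R + 5), volDens a x)) ^ ((n : ℝ)⁻¹)
        * (∫ x in obox n (R + 5),
            smoothed n k E x * smoothed n k E x ^ ((n : ℝ)⁻¹) * volDens a x)
      - δ * ∑ j, ∫ x in obox n (R + 5), |volDens a x * gDiv a (a j) x|
      ≤ (1 + η) * (gPer a E).toReal := by
  set L := R + 5 with hLdef
  have hL : 0 < L := by linarith
  set f := smoothed n k E
  have hf : ContDiff ℝ 1 f := smoothed_smooth hE hfin k
  have hf0 : ∀ x, 0 ≤ f x := fun x => (smoothed_mem hE k x).1
  have hmemL : ∀ x : Fin n → ℝ, ‖x‖ < L → x ∈ obox n L := fun x hx i _ =>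
    abs_lt.1 ((norm_le_pi_norm x i).trans_lt hx)
  have hfsupp : ∀ x, x ∉ obox n L → f x = 0 := fun x hx => smoothed_eq_zero hR k (by
    by_contra h; push Not at h; exact hx (hmemL x (by linarith)))
  have hvc : Continuous (volDens a) := (contDiff_volDens ha).continuous
  obtain ⟨hM, T, hTc, hT1, hT, hTmom⟩ := exists_map hn ha hmono hL
    (ρ := fun x => (f x + δ) * volDens a x) ((hf.add contDiff_const).mul (contDiff_volDens ha))
    fun x => mul_pos (by linarith [hf0 x]) (volDens_pos ha x)
  have hMeq : ∫ x in obox n L, (f x + δ) * volDens a x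
      = (∫ x in obox n L, f x * volDens a x) + δ * ∫ x in obox n L, volDens a x := by
    simp only [add_mul]
    rw [integral_add (integrableOn_obox (f := fun x => f x * volDens a x) (hf.continuous.mul hvc))
      (integrableOn_obox (f := fun x => δ * volDens a x) (continuous_const.mul hvc)),
      MeasureTheory.integral_const_mul]
  set χ : ContDiffBump (0 : Fin n → ℝ) := ⟨R + 3, R + 4, by linarith, by linarith⟩
  set Y : (Fin n → ℝ) → Fin n → ℝ := fun x => χ x • T x
  have hY : ContDiff ℝ 1 Y := contDiff_iff_contDiffAt.2 fun x => by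
    by_cases hx : x ∈ obox n L
    · exact χ.contDiff.contDiffAt.smul (hT x hx).1
    · refine (contDiffAt_const (c := (0 : Fin n → ℝ))).congr_of_eventuallyEq ?_
      have hxn : R + 4 < ‖x‖ := by
        by_contra h; push Not at h; exact hx (hmemL x (by linarith))
      filter_upwards [(isOpen_lt continuous_const continuous_norm).mem_nhds hxn] with y hy
      simp [Y, χ.zero_of_le_dist (by rw [dist_zero_right]; exact hy.le)]
  have hY1 : ∀ x, ∑ j, Y x j ^ 2 ≤ 1 := fun x => by
    simp only [Y, Pi.smul_apply, smul_eq_mul, mul_pow, ← Finset.mul_sum]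
    exact mul_le_one₀ (pow_le_one₀ χ.nonneg χ.le_one) (Finset.sum_nonneg fun _ _ => sq_nonneg _) (hT1 x)
  have hY0 : ∀ x, R + 4 < ‖x‖ → Y x = 0 := fun x hx => by
    simp [Y, χ.zero_of_le_dist (by rw [dist_zero_right]; exact hx.le)]
  set W := combine (dens a) Y
  have hW : ContDiff ℝ 1 W := contDiff_combine (isTriFrame_dens ha) hY
  have hWc : HasCompactSupport W :=
    HasCompactSupport.intro (isCompact_closedBall 0 (R + 4)) fun x hx => by
      rw [Metric.mem_closedBall, dist_zero_right, not_le] at hx
      funext j; simp [W, combine, hY0 x hx]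
  have hdW : Continuous (divergence W) := continuous_divergence hW
  have hdWc : HasCompactSupport (divergence W) := by
    refine hWc.mono' fun x hx => ?_
    by_contra h
    apply hx
    simp only [divergence]
    refine Finset.sum_eq_zero fun j _ => ?_
    have : (fun y => W y j) =ᶠ[𝓝 x] fun _ => (0 : ℝ) := by
      filter_upwards [(isClosed_tsupport W).isOpen_compl.mem_nhds h] with y hy
      rw [image_eq_zero_of_notMem_tsupport hy]; rfl
    rw [this.fderiv_eq]; simp
  have hup := integral_smoothed_mul_le hE k (hdW.integrable_of_hasCompactSupport hdWc) hε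
    (hshift Y hY hY1 hY0)
  rw [← setIntegral_eq_integral_of_forall_compl_eq_zero (s := obox n L)
    (fun x hx => by show f x * _ = 0; rw [hfsupp x hx, zero_mul])] at hup
  set M := (∫ x in obox n L, f x * volDens a x) + δ * ∫ x in obox n L, volDens a x
  have hMpos : 0 < M := hMeq ▸ hM
  set p := (n : ℝ)⁻¹
  have hp : 0 ≤ p := inv_nonneg.2 (Nat.cast_nonneg n)
  set A := fun x => f x * f x ^ p * volDens a x
  set B := fun x => ∑ j, f x * volDens a x * (gDiv a (a j) x * T x j)
  have hAc : Continuous A :=
    (hf.continuous.mul (hf.continuous.rpow_const fun x => Or.inr hp)).mul hvc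
  have hcT : ∀ j, Continuous fun x => gDiv a (a j) x * T x j := fun j =>
    (continuous_gDiv ha j).mul ((continuous_apply j).comp hTc)
  have hjc : ∀ j, Continuous fun x => f x * volDens a x * (gDiv a (a j) x * T x j) := fun j =>
    (hf.continuous.mul hvc).mul (hcT j)
  have hpt : ∀ x ∈ obox n L,
      n * (unitBallVol n / M) ^ p * A x + B x ≤ f x * divergence W x := by
    intro x hx
    by_cases hfx : f x = 0
    · simp [A, B, hfx]
    have hxn : ‖x‖ < R + 3 := by
      by_contra h; push Not at h; exact hfx (smoothed_eq_zero hR k (by linarith))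
    have hev : ∀ j, (fun y => W y j) =ᶠ[𝓝 x] fun y => combine (dens a) T y j := fun j => by
      filter_upwards [(isOpen_lt continuous_norm continuous_const).mem_nhds hxn] with y hy
      simp [W, combine, Y, χ.one_of_mem_closedBall (by
        rw [Metric.mem_closedBall, dist_zero_right]; exact hy.le)]
    have hdiv : divergence W x = divergence (combine (dens a) T) x := by
      simp only [divergence]
      exact Finset.sum_congr rfl fun j _ => by rw [(hev j).fderiv_eq]
    have hω := (unitBallVol_pos n).le
    have hv := volDens_pos ha x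
    have h1 := (hT x hx).2
    rw [hMeq, show ∑ j, T x j * gDiv a (a j) x = ∑ j, gDiv a (a j) x * T x j from
      Finset.sum_congr rfl fun j _ => mul_comm _ _,
      show unitBallVol n * ((f x + δ) * volDens a x) / (M * volDens a x)
        = unitBallVol n * (f x + δ) / M by field_simp] at h1
    have h2 : (unitBallVol n / M) ^ p * f x ^ p ≤ (unitBallVol n * (f x + δ) / M) ^ p := by
      rw [← Real.mul_rpow (div_nonneg hω hMpos.le) (hf0 x), div_mul_eq_mul_div]
      refine Real.rpow_le_rpow (div_nonneg (mul_nonneg hω (hf0 x)) hMpos.le) ?_ hp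
      gcongr; linarith
    calc n * (unitBallVol n / M) ^ p * A x + B x
        = f x * (volDens a x *
            (n * ((unitBallVol n / M) ^ p * f x ^ p) + ∑ j, gDiv a (a j) x * T x j)) := by
          simp only [A, B, ← Finset.mul_sum]; ring
      _ ≤ f x * divergence W x := by
          rw [hdiv]
          refine mul_le_mul_of_nonneg_left (le_trans ?_ h1) (hf0 x)
          gcongr
  have hint : n * (unitBallVol n / M) ^ p * (∫ x in obox n L, A x) + ∫ x in obox n L, B x
      ≤ ∫ x in obox n L, f x * divergence W x := by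
    have hi : IntegrableOn (fun x => n * (unitBallVol n / M) ^ p * A x) (obox n L) :=
      integrableOn_obox (continuous_const.mul hAc)
    have hiB : IntegrableOn B (obox n L) :=
      integrableOn_obox (continuous_finsetSum _ fun j _ => hjc j)
    rw [← MeasureTheory.integral_const_mul, ← integral_add hi hiB]
    exact setIntegral_mono_on (hi.add hiB) (integrableOn_obox (hf.continuous.mul hdW))
      (measurableSet_obox n L) hpt
  have hB : -(δ * ∑ j, ∫ x in obox n L, |volDens a x * gDiv a (a j) x|)
      ≤ ∫ x in obox n L, B x := by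
    rw [integral_finsetSum _ fun j _ => integrableOn_obox (hjc j), Finset.mul_sum,
      ← Finset.sum_neg_distrib]
    refine Finset.sum_le_sum fun j _ => ?_
    have hvcT : Continuous fun x => volDens a x * (gDiv a (a j) x * T x j) := hvc.mul (hcT j)
    have hsplit : (∫ x in obox n L, (f x + δ) * volDens a x * (gDiv a (a j) x * T x j))
        = (∫ x in obox n L, f x * volDens a x * (gDiv a (a j) x * T x j))
          + δ * ∫ x in obox n L, volDens a x * (gDiv a (a j) x * T x j) := by
      rw [← MeasureTheory.integral_const_mul, ← integral_add (integrableOn_obox (hjc j))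
        ((integrableOn_obox hvcT).const_mul δ)]
      exact integral_congr_ae (.of_forall fun x => by ring)
    have habs : (∫ x in obox n L, volDens a x * (gDiv a (a j) x * T x j))
        ≤ ∫ x in obox n L, |volDens a x * gDiv a (a j) x| := by
      refine setIntegral_mono_on (integrableOn_obox hvcT)
        (integrableOn_obox (hvc.mul (continuous_gDiv ha j)).abs) (measurableSet_obox n L)
        fun x _ => ?_
      rw [← mul_assoc]
      refine (le_abs_self _).trans ?_
      rw [abs_mul]
      exact mul_le_of_le_one_right (abs_nonneg _) ((sq_le_one_iff_abs_le_one _).1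
        ((Finset.single_le_sum (f := fun i => T x i ^ 2) (fun _ _ => sq_nonneg _)
          (Finset.mem_univ j)).trans (hT1 x)))
    nlinarith [hTmom j, mul_le_mul_of_nonneg_left habs hδ.le]
  linarith

/-- The sharp Euclidean isoperimetric inequality for monotone triangular frames. -/
theorem isoperimetric (hn : 2 ≤ n) (ha : IsTriFrame a) (hmono : MonotoneDiv a)
    (hE : MeasurableSet E) (hb : Bornology.IsBounded E) :
    ENNReal.ofReal (n * unitBallVol n ^ ((n : ℝ)⁻¹) * gVol a E ^ (((n : ℝ) - 1) / n))
      ≤ gPer a E := by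
  by_cases hP : gPer a E = ∞
  · simp [hP]
  have hn2 : (2 : ℝ) ≤ n := by exact_mod_cast hn
  have hn0 : (0 : ℝ) < n := by linarith
  set V := gVol a E
  have hV0 : 0 ≤ V := setIntegral_nonneg hE fun x _ => (volDens_pos ha x).le
  rcases hV0.eq_or_lt with hV | hV
  · rw [← hV, Real.zero_rpow (div_pos (by linarith) hn0).ne']; simp
  refine ENNReal.ofReal_le_of_le_toReal ?_
  set P := (gPer a E).toReal
  have hfin : volume E ≠ ∞ := hb.measure_lt_top.ne
  obtain ⟨R, hR⟩ := hb.subset_closedBall (0 : Fin n → ℝ)
  set R' := max R 0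
  have hR' : ∀ x ∈ E, ‖x‖ ≤ R' := fun x hx =>
    (mem_closedBall_zero_iff.1 (hR hx)).trans (le_max_left _ _)
  set L := R' + 5
  set p := (n : ℝ)⁻¹
  have hp : 0 ≤ p := inv_nonneg.2 hn0.le
  have hvc : Continuous (volDens a) := (contDiff_volDens ha).continuous
  suffices key : ∀ η, 0 < η → n * (unitBallVol n / V) ^ p * V ≤ (1 + η) * P by
    have h0 : n * (unitBallVol n / V) ^ p * V ≤ P := by
      refine le_of_tendsto_of_tendsto tendsto_const_nhds (b := 𝓝[>] (0 : ℝ))
        (g := fun η => (1 + η) * P) ?_
        (by filter_upwards [self_mem_nhdsWithin] with η hη using key η hη)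
      have hc : Continuous fun η : ℝ => (1 + η) * P := by fun_prop
      simpa using (hc.tendsto 0).mono_left nhdsWithin_le_nhds
    refine le_trans (le_of_eq ?_) h0
    rw [Real.div_rpow (unitBallVol_pos n).le hV.le,
      show ((n : ℝ) - 1) / n = 1 - p by simp only [p]; field_simp, Real.rpow_sub hV, Real.rpow_one]
    field_simp
  intro η hη
  obtain ⟨ε, hε, hshift⟩ := exists_shift_bound (isTriFrame_dens ha) hP (R' + 4) hη
  have hloc := (integrable_indicator_one hE hfin).locallyIntegrable
  have hae : ∀ᵐ x, Tendsto (fun k => smoothed n k E x) atTop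
      (𝓝 (E.indicator (fun _ => (1 : ℝ)) x)) :=
    ContDiffBump.ae_convolution_tendsto_right_of_locallyIntegrable (K := 2) (φ := fun k => bump n k)
      (tendsto_rOut n) (.of_forall fun k => le_of_eq (by simp only [bump]; ring)) hloc
  have hint : (∫ x in obox n L, E.indicator (fun _ => (1 : ℝ)) x * volDens a x) = V := by
    have hsub : E ⊆ obox n L := fun x hx i _ => abs_lt.1
      (((norm_le_pi_norm x i).trans (hR' x hx)).trans_lt (by linarith))
    have he : (fun x => E.indicator (fun _ => (1 : ℝ)) x * volDens a x) = E.indicator (volDens a) :=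
      funext fun x => by by_cases hx : x ∈ E <;> simp [hx]
    rw [he, setIntegral_indicator hE, inter_eq_right.2 hsub]
    rfl
  have hlim : ∀ G : ℝ → ℝ, Continuous G → G 0 = 0 → G 1 = 1 →
      (∀ y ∈ Icc (0 : ℝ) 1, |G y| ≤ 1) →
      Tendsto (fun k => ∫ x in obox n L, G (smoothed n k E x) * volDens a x) atTop (𝓝 V) := by
    intro G hG hG0 hG1 hGb
    rw [← hint]
    refine tendsto_integral_of_dominated_convergence (fun x => volDens a x)
      (fun k => ((hG.comp (smoothed_smooth hE hfin k).continuous).mul hvc).aestronglyMeasurable)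
      (integrableOn_obox hvc) (fun k => .of_forall fun x => ?_) ?_
    · rw [norm_mul, Real.norm_eq_abs, Real.norm_eq_abs, abs_of_pos (volDens_pos ha x)]
      exact mul_le_of_le_one_left (volDens_pos ha x).le (hGb _ (smoothed_mem hE k x))
    · filter_upwards [ae_restrict_of_ae hae] with x hx
      have h := ((hG.tendsto _).comp hx).mul_const (volDens a x)
      convert h using 1
      congr 1
      by_cases hxE : x ∈ E <;> simp [hxE, hG0, hG1]
  have hA := hlim (fun y => y * y ^ p) (continuous_id.mul (continuous_id.rpow_const fun y => Or.inr hp))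
    (by simp) (by simp) fun y hy => by
      rw [abs_of_nonneg (mul_nonneg hy.1 (Real.rpow_nonneg hy.1 p))]
      exact mul_le_one₀ hy.2 (Real.rpow_nonneg hy.1 p) (Real.rpow_le_one hy.1 hy.2 hp)
  have hB := hlim (fun y => y) continuous_id rfl rfl fun y hy => by
    rw [abs_of_nonneg hy.1]; exact hy.2
  have hk : ∀ᶠ k in atTop, n * (unitBallVol n / ∫ x in obox n L, smoothed n k E x * volDens a x) ^ p
      * (∫ x in obox n L, smoothed n k E x * smoothed n k E x ^ p * volDens a x) ≤ (1 + η) * P := by
    filter_upwards [(tendsto_rOut n).eventually (eventually_le_nhds hε),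
      hB.eventually (eventually_gt_nhds hV)] with k hk hVk
    set Vk := ∫ x in obox n L, smoothed n k E x * volDens a x
    set A := ∫ x in obox n L, smoothed n k E x * smoothed n k E x ^ p * volDens a x
    set C := ∑ j, ∫ x in obox n L, |volDens a x * gDiv a (a j) x|
    set Q := ∫ x in obox n L, volDens a x
    have hcont : ContinuousAt
        (fun δ => n * (unitBallVol n / (Vk + δ * Q)) ^ p * A - δ * C) 0 := by
      refine ((continuousAt_const.mul (ContinuousAt.rpow_const
        (continuousAt_const.div (by fun_prop) (by simp [hVk.ne'])) (Or.inr hp))).mul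
        continuousAt_const).sub (continuousAt_id.mul continuousAt_const)
    have ht := hcont.tendsto.mono_left (nhdsWithin_le_nhds (s := Ioi (0 : ℝ)))
    simp only [zero_mul, add_zero, sub_zero] at ht
    refine le_of_tendsto ht ?_
    filter_upwards [self_mem_nhdsWithin] with δ hδ
    exact estimate (by omega) ha hmono hE hfin (le_max_right _ _) hR' k hk hshift hδ
  refine le_of_tendsto ?_ hk
  exact (((tendsto_const_nhds.div hB hV.ne').rpow_const (Or.inr hp)).const_mul _).mul hA

end

end Vale.Agent.P219.Frame
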